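import Mathlib

/-!
# P015: definitions for the logarithmic-width strip theorem
-/

namespace Vale.Agent.Lib.P015

/-- The nontrivial Dirichlet character modulo `4`, as a real valued function on `ℕ`. -/
noncomputable def chi4 (n : ℕ) : ℝ := if n % 4 = 1 then 1 else if n % 4 = 3 then -1 else 0

/-- Partial sums of the series `∑ chi4 n / n`. -/
noncomputable def Achi (N : ℕ) : ℝ := ∑ n ∈ Finset.Ioc 0 N, chi4 n / (n : ℝ)

/-- The sieve weight of `n` with respect to a finite set `S` of primes: the product over
`p ∈ S` of `1` if `p ∣ n` and of `1 - 2 / p` otherwise. -/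
noncomputable def sieveW (S : Finset ℕ) (n : ℕ) : ℝ :=
  ∏ p ∈ S, (if p ∣ n then (1 : ℝ) else 1 - 2 / (p : ℝ))

end Vale.Agent.Lib.P015
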