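import Mathlib
import Vale.Agent.Lib.P015.Log.Defs

/-!
# P015: discrete partial summation, from `log N / 2 - C` to `(log log N) / 2`
-/

namespace Vale.Agent.Lib.P015

theorem abel_loglog (a : ℕ → ℝ) (ha : ∀ n, 0 ≤ a n) (ha1 : a 1 = 0) (C : ℝ) (hC : 0 ≤ C)
    (hT : ∀ N : ℕ, 1 ≤ N → Real.log N / 2 - C ≤ ∑ n ∈ Finset.Ioc 0 N, a n)
    (N : ℕ) (hN : 2 ≤ N) :
    Real.log (Real.log ((N : ℝ) + 1)) / 2 - Real.log (Real.log 3) / 2 - C / Real.log 2
      ≤ ∑ n ∈ Finset.Ioc 0 N, a n / Real.log n := by
  have key : ∀ x : ℕ, 2 ≤ x →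
      (∑ n ∈ Finset.Ioc 0 x, a n) / Real.log x
        + (Real.log (Real.log ((x : ℝ) + 1)) - Real.log (Real.log 3)) / 2
        - C * (1 / Real.log 2 - 1 / Real.log x)
        ≤ ∑ n ∈ Finset.Ioc 0 x, a n / Real.log n := by
    intro x hx
    induction x, hx using Nat.le_induction with
    | base =>
      have h2 : Finset.Ioc 0 2 = {1, 2} := by decide
      have hs1 : ∑ n ∈ Finset.Ioc 0 2, a n = a 2 := by
        rw [h2, Finset.sum_pair (by norm_num), ha1, zero_add]
      have hs2 : ∑ n ∈ Finset.Ioc 0 2, a n / Real.log n = a 2 / Real.log 2 := by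
        rw [h2, Finset.sum_pair (by norm_num), ha1, zero_div, zero_add]
        norm_num
      rw [hs1, hs2]
      have h3 : ((2 : ℕ) : ℝ) + 1 = 3 := by norm_num
      have h4 : ((2 : ℕ) : ℝ) = 2 := by norm_num
      rw [h3, h4]
      simp
    | succ x hx ih =>
      have hx1 : (1 : ℝ) < (x : ℝ) := by exact_mod_cast hx
      have hxpos : (0 : ℝ) < (x : ℝ) := by linarith
      have hlx : 0 < Real.log x := Real.log_pos hx1
      have hlx1 : 0 < Real.log ((x : ℝ) + 1) := Real.log_pos (by linarith)
      have hlx2 : 0 < Real.log ((x : ℝ) + 2) := Real.log_pos (by linarith)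
      have hmono : Real.log x ≤ Real.log ((x : ℝ) + 1) :=
        Real.log_le_log hxpos (by linarith)
      rw [Finset.sum_Ioc_succ_top (Nat.zero_le x), Finset.sum_Ioc_succ_top (Nat.zero_le x)]
      have hcast : ((x + 1 : ℕ) : ℝ) = (x : ℝ) + 1 := by push_cast; ring
      have hcast2 : (x : ℝ) + 1 + 1 = (x : ℝ) + 2 := by ring
      rw [hcast, hcast2]
      have hTC : Real.log x / 2 ≤ (∑ n ∈ Finset.Ioc 0 x, a n) + C := by
        have := hT x (by omega)
        linarith
      generalize (∑ n ∈ Finset.Ioc 0 x, a n) = T at ih hTC ⊢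
      generalize (∑ n ∈ Finset.Ioc 0 x, a n / Real.log n) = R at ih ⊢
      have h1 : Real.log (Real.log ((x : ℝ) + 2)) - Real.log (Real.log ((x : ℝ) + 1))
          ≤ (Real.log ((x : ℝ) + 1) - Real.log x) / Real.log ((x : ℝ) + 1) := by
        have e1 : Real.log (Real.log ((x : ℝ) + 2)) - Real.log (Real.log ((x : ℝ) + 1))
            = Real.log (Real.log ((x : ℝ) + 2) / Real.log ((x : ℝ) + 1)) := by
          rw [Real.log_div hlx2.ne' hlx1.ne']
        have e2 : Real.log (Real.log ((x : ℝ) + 2) / Real.log ((x : ℝ) + 1))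
            ≤ Real.log ((x : ℝ) + 2) / Real.log ((x : ℝ) + 1) - 1 :=
          Real.log_le_sub_one_of_pos (div_pos hlx2 hlx1)
        have e3 : Real.log ((x : ℝ) + 2) - Real.log ((x : ℝ) + 1)
            ≤ Real.log ((x : ℝ) + 1) - Real.log x := by
          rw [← Real.log_div (by linarith) (by linarith),
            ← Real.log_div (by linarith) hxpos.ne']
          apply Real.log_le_log (by positivity)
          rw [div_le_div_iff₀ (by linarith) hxpos]
          nlinarith
        have e4 : Real.log ((x : ℝ) + 2) / Real.log ((x : ℝ) + 1) - 1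
            = (Real.log ((x : ℝ) + 2) - Real.log ((x : ℝ) + 1)) / Real.log ((x : ℝ) + 1) := by
          field_simp
        have e5 : (Real.log ((x : ℝ) + 2) - Real.log ((x : ℝ) + 1)) / Real.log ((x : ℝ) + 1)
            ≤ (Real.log ((x : ℝ) + 1) - Real.log x) / Real.log ((x : ℝ) + 1) :=
          div_le_div_of_nonneg_right e3 hlx1.le
        rw [e1]
        linarith
      have hnn : 0 ≤ 1 / Real.log x - 1 / Real.log ((x : ℝ) + 1) := by
        rw [sub_nonneg]
        exact one_div_le_one_div_of_le hlx hmono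
      have h2 : (Real.log x / 2) * (1 / Real.log x - 1 / Real.log ((x : ℝ) + 1))
          ≤ (T + C) * (1 / Real.log x - 1 / Real.log ((x : ℝ) + 1)) :=
        mul_le_mul_of_nonneg_right hTC hnn
      have h3 : (Real.log x / 2) * (1 / Real.log x - 1 / Real.log ((x : ℝ) + 1))
          = (Real.log ((x : ℝ) + 1) - Real.log x) / Real.log ((x : ℝ) + 1) / 2 := by
        field_simp
      have h5 : (T + a (x + 1)) / Real.log ((x : ℝ) + 1)
          + (Real.log (Real.log ((x : ℝ) + 2)) - Real.log (Real.log 3)) / 2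
          - C * (1 / Real.log 2 - 1 / Real.log ((x : ℝ) + 1))
          = (T / Real.log x
              + (Real.log (Real.log ((x : ℝ) + 1)) - Real.log (Real.log 3)) / 2
              - C * (1 / Real.log 2 - 1 / Real.log x))
            + a (x + 1) / Real.log ((x : ℝ) + 1)
            - ((T + C) * (1 / Real.log x - 1 / Real.log ((x : ℝ) + 1))
              - (Real.log (Real.log ((x : ℝ) + 2))
                  - Real.log (Real.log ((x : ℝ) + 1))) / 2) := by
        ring
      rw [h5]
      linarith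
  have hk := key N hN
  have hN1 : (1 : ℝ) < (N : ℝ) := by exact_mod_cast hN
  have hlN : 0 < Real.log N := Real.log_pos hN1
  have hTnn : 0 ≤ (∑ n ∈ Finset.Ioc 0 N, a n) / Real.log N :=
    div_nonneg (Finset.sum_nonneg fun n _ => ha n) hlN.le
  have hCN : 0 ≤ C / Real.log N := div_nonneg hC hlN.le
  have e : C * (1 / Real.log 2 - 1 / Real.log N) = C / Real.log 2 - C / Real.log N := by
    ring
  rw [e] at hk
  linarith

end Vale.Agent.Lib.P015
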