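import Mathlib
import Vale.Agent.Lib.P015.Log.Defs

/-!
# P015: the character chi4, its interval sums and a Dirichlet test
-/

namespace Vale.Agent.Lib.P015

theorem chi4_mul (a b : ℕ) : chi4 (a * b) = chi4 a * chi4 b := by
  unfold chi4
  have h := Nat.mul_mod a b 4
  have ha : a % 4 < 4 := Nat.mod_lt _ (by norm_num)
  have hb : b % 4 < 4 := Nat.mod_lt _ (by norm_num)
  rw [h]
  generalize a % 4 = x at *
  generalize b % 4 = y at *
  interval_cases x <;> interval_cases y <;> norm_num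

theorem abs_chi4_le (a : ℕ) : |chi4 a| ≤ 1 := by
  unfold chi4
  split_ifs <;> norm_num

lemma chi4_sum_range (N : ℕ) :
    ∑ n ∈ Finset.range N, chi4 n = if N % 4 = 2 ∨ N % 4 = 3 then 1 else 0 := by
  induction N with
  | zero => simp
  | succ N ih =>
    rw [Finset.sum_range_succ, ih]
    unfold chi4
    have h4 : N % 4 = 0 ∨ N % 4 = 1 ∨ N % 4 = 2 ∨ N % 4 = 3 := by omega
    rcases h4 with h | h | h | h
    · have h' : (N + 1) % 4 = 1 := by omega
      simp [h, h']
    · have h' : (N + 1) % 4 = 2 := by omega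
      simp [h, h']
    · have h' : (N + 1) % 4 = 3 := by omega
      simp [h, h']
    · have h' : (N + 1) % 4 = 0 := by omega
      simp [h, h']

theorem chi4_sum_Ico_abs_le (M N : ℕ) : |∑ n ∈ Finset.Ico M N, chi4 n| ≤ 1 := by
  rcases le_total M N with h | h
  · rw [Finset.sum_Ico_eq_sub _ h, chi4_sum_range, chi4_sum_range]
    split_ifs <;> norm_num
  · rw [Finset.Ico_eq_empty_of_le h]
    simp

theorem dirichlet_test_chi4 (f : ℕ → ℝ) (M : ℕ) (hf : ∀ n, M ≤ n → f (n + 1) ≤ f n)
    (hf0 : ∀ n, M ≤ n → 0 ≤ f n) (N : ℕ) : |∑ n ∈ Finset.Ico M N, chi4 n * f n| ≤ f M := by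
  rcases le_total M N with h | h
  · have key : ∀ K, M ≤ K →
        |∑ n ∈ Finset.Ico M K, chi4 n * f n - f K * ∑ n ∈ Finset.Ico M K, chi4 n| ≤
          f M - f K := by
      intro K hK
      induction K, hK using Nat.le_induction with
      | base => simp
      | succ K hK ih =>
        rw [Finset.sum_Ico_succ_top hK, Finset.sum_Ico_succ_top hK]
        have hY := chi4_sum_Ico_abs_le M (K + 1)
        rw [Finset.sum_Ico_succ_top hK] at hY
        have hd := hf K hK
        have e : ∑ n ∈ Finset.Ico M K, chi4 n * f n + chi4 K * f K -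
            f (K + 1) * (∑ n ∈ Finset.Ico M K, chi4 n + chi4 K) =
            (∑ n ∈ Finset.Ico M K, chi4 n * f n - f K * ∑ n ∈ Finset.Ico M K, chi4 n) +
              (f K - f (K + 1)) * (∑ n ∈ Finset.Ico M K, chi4 n + chi4 K) := by
          ring
        rw [e]
        refine le_trans (abs_add_le _ _) ?_
        rw [abs_mul, abs_of_nonneg (by linarith : (0 : ℝ) ≤ f K - f (K + 1))]
        nlinarith [abs_nonneg (∑ n ∈ Finset.Ico M K, chi4 n + chi4 K)]
    have k := key N h
    have hY := chi4_sum_Ico_abs_le M N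
    have hN0 := hf0 N h
    have h3 : |∑ n ∈ Finset.Ico M N, chi4 n * f n| ≤
        |∑ n ∈ Finset.Ico M N, chi4 n * f n - f N * ∑ n ∈ Finset.Ico M N, chi4 n| +
          |f N * ∑ n ∈ Finset.Ico M N, chi4 n| := by
      have h4 := abs_add_le
        (∑ n ∈ Finset.Ico M N, chi4 n * f n - f N * ∑ n ∈ Finset.Ico M N, chi4 n)
        (f N * ∑ n ∈ Finset.Ico M N, chi4 n)
      rw [sub_add_cancel] at h4
      exact h4
    rw [abs_mul, abs_of_nonneg hN0] at h3
    nlinarith
  · rw [Finset.Ico_eq_empty_of_le h]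
    simpa using hf0 M le_rfl

lemma Ioc_zero_eq (N : ℕ) : Finset.Ioc 0 N = Finset.Ico 1 (N + 1) := by
  ext x
  simp only [Finset.mem_Ioc, Finset.mem_Ico]
  omega

lemma Achi_sub (M N : ℕ) (hMN : M ≤ N) :
    Achi N - Achi M = ∑ n ∈ Finset.Ico (M + 1) (N + 1), chi4 n * (1 / (n : ℝ)) := by
  unfold Achi
  rw [Ioc_zero_eq, Ioc_zero_eq,
    ← Finset.sum_Ico_consecutive _ (show 1 ≤ M + 1 by omega) (show M + 1 ≤ N + 1 by omega)]
  rw [add_sub_cancel_left]
  refine Finset.sum_congr rfl (fun n _ => ?_)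
  ring

theorem Achi_tail (M N : ℕ) (hMN : M ≤ N) : |Achi N - Achi M| ≤ 1 / ((M : ℝ) + 1) := by
  rw [Achi_sub M N hMN]
  have h := dirichlet_test_chi4 (fun n : ℕ => 1 / (n : ℝ)) (M + 1)
    (fun n hn => by
      have hn0 : (0 : ℝ) < (n : ℝ) := by
        have : 0 < n := by omega
        exact_mod_cast this
      have : ((n + 1 : ℕ) : ℝ) = (n : ℝ) + 1 := by push_cast; ring
      rw [this]
      exact one_div_le_one_div_of_le hn0 (by linarith))
    (fun n _ => by positivity) (N + 1)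
  have e : (1 : ℝ) / ((M + 1 : ℕ) : ℝ) = 1 / ((M : ℝ) + 1) := by push_cast; ring
  rw [← e]
  exact h

theorem Achi_ge (N : ℕ) (hN : 1 ≤ N) : 1 / 2 ≤ Achi N := by
  have h := Achi_tail 1 N hN
  have h1 : Achi 1 = 1 := by
    unfold Achi chi4
    rw [Ioc_zero_eq]
    norm_num
  rw [h1] at h
  have h2 := (abs_le.mp h).1
  norm_num at h2
  linarith

lemma chi4_two : chi4 2 = 0 := by
  unfold chi4
  norm_num

theorem Bchi_abs_le (N : ℕ) :
    |∑ n ∈ Finset.Ioc 0 N, chi4 n * (Real.log n / (n : ℝ))| ≤ 1 := by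
  rw [Ioc_zero_eq]
  have hl3 : Real.log 3 / 3 ≤ 1 := by
    have := Real.log_le_sub_one_of_pos (show (0 : ℝ) < 3 by norm_num)
    linarith
  rcases Nat.lt_or_ge N 2 with h | h
  · interval_cases N
    · simp
    · simp
  · have hc := Finset.sum_Ico_consecutive (fun n : ℕ => chi4 n * (Real.log n / (n : ℝ)))
      (show 1 ≤ 3 by norm_num) (show 3 ≤ N + 1 by omega)
    rw [← hc]
    have h13 : ∑ n ∈ Finset.Ico 1 3, chi4 n * (Real.log n / (n : ℝ)) = 0 := by
      rw [Finset.sum_Ico_succ_top (by norm_num), Finset.sum_Ico_succ_top (by norm_num)]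
      simp [chi4_two]
    rw [h13, zero_add]
    have ht := dirichlet_test_chi4 (fun n : ℕ => Real.log n / (n : ℝ)) 3
      (fun n hn => by
        have hn3 : (3 : ℝ) ≤ (n : ℝ) := by exact_mod_cast hn
        have he : Real.exp 1 ≤ 3 := by
          have := Real.exp_one_lt_d9
          linarith
        have ha := Real.log_div_self_antitoneOn
          (show (n : ℝ) ∈ {x : ℝ | Real.exp 1 ≤ x} by simp only [Set.mem_ofPred_eq]; linarith)
          (show ((n + 1 : ℕ) : ℝ) ∈ {x : ℝ | Real.exp 1 ≤ x} by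
            simp only [Set.mem_ofPred_eq]; push_cast; linarith)
          (show (n : ℝ) ≤ ((n + 1 : ℕ) : ℝ) by push_cast; linarith)
        exact ha)
      (fun n _ => div_nonneg (Real.log_natCast_nonneg n) (Nat.cast_nonneg n)) (N + 1)
    refine le_trans ht ?_
    simpa using hl3

end Vale.Agent.Lib.P015
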