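import Mathlib
import Vale.Agent.Lib.P015.Log.Defs

/-!
# P015: the von Mangoldt sum over even `d` is bounded
-/

namespace Vale.Agent.Lib.P015

/-- A geometric sum identity for the sum of `x ^ k` over `1 ≤ k ≤ N`. -/
private theorem geom_Icc_one_aux (x : ℝ) (N : ℕ) :
    (1 - x) * ∑ k ∈ Finset.Icc 1 N, x ^ k = x - x ^ (N + 1) := by
  induction N with
  | zero => simp
  | succ n ih =>
    rw [Finset.sum_Icc_succ_top (by omega), mul_add, ih]
    ring

/-- The sum of the powers of one half over `1 ≤ k ≤ N` is at most one. -/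
private theorem geom_half_le (N : ℕ) : ∑ k ∈ Finset.Icc 1 N, (1 / 2 : ℝ) ^ k ≤ 1 := by
  have h := geom_Icc_one_aux (1 / 2 : ℝ) N
  have h2 : (0 : ℝ) ≤ (1 / 2 : ℝ) ^ (N + 1) := by positivity
  linarith

theorem vonMangoldt_even_sum_le (N : ℕ) :
    ∑ d ∈ (Finset.Ioc 0 N).filter (fun d => 2 ∣ d),
      ArithmeticFunction.vonMangoldt d / (d : ℝ) ≤ 2 := by
  classical
  have hnn : ∀ d : ℕ, 0 ≤ ArithmeticFunction.vonMangoldt d / (d : ℝ) := fun d =>
    div_nonneg ArithmeticFunction.vonMangoldt_nonneg (Nat.cast_nonneg d)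
  have hsub : ((Finset.Ioc 0 N).filter (fun d => 2 ∣ d)).filter
        (fun d => ArithmeticFunction.vonMangoldt d / (d : ℝ) ≠ 0) ⊆
      (Finset.Icc 1 N).image (fun k : ℕ => 2 ^ k) := by
    intro d hd
    rw [Finset.mem_filter, Finset.mem_filter, Finset.mem_Ioc] at hd
    obtain ⟨⟨⟨hd0, hdN⟩, h2d⟩, hne⟩ := hd
    have hL : ArithmeticFunction.vonMangoldt d ≠ 0 := by
      intro h0
      exact hne (by rw [h0, zero_div])
    rw [ArithmeticFunction.vonMangoldt_ne_zero_iff, isPrimePow_nat_iff] at hL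
    obtain ⟨p, k, hp, hk, rfl⟩ := hL
    have h2p : 2 ∣ p := Nat.Prime.dvd_of_dvd_pow Nat.prime_two h2d
    have hp2 : p = 2 := ((Nat.prime_dvd_prime_iff_eq Nat.prime_two hp).1 h2p).symm
    subst hp2
    have hkN : k ≤ N := by
      have h1 : k < 2 ^ k := Nat.lt_two_pow_self
      omega
    rw [Finset.mem_image]
    exact ⟨k, Finset.mem_Icc.2 ⟨hk, hkN⟩, rfl⟩
  have hterm : ∀ k ∈ Finset.Icc 1 N,
      ArithmeticFunction.vonMangoldt (2 ^ k) / ((2 ^ k : ℕ) : ℝ) ≤ (1 / 2 : ℝ) ^ k := by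
    intro k hk
    have hk1 : k ≠ 0 := by
      have := (Finset.mem_Icc.1 hk).1
      omega
    rw [ArithmeticFunction.vonMangoldt_apply_pow hk1,
      ArithmeticFunction.vonMangoldt_apply_prime Nat.prime_two, Nat.cast_pow, one_div_pow]
    have hlog : Real.log ((2 : ℕ) : ℝ) ≤ 1 := by
      have := Real.log_two_lt_d9
      norm_num at this ⊢
      linarith
    have h2 : ((2 : ℕ) : ℝ) = 2 := by norm_num
    rw [h2] at hlog ⊢
    exact div_le_div_of_nonneg_right hlog (by positivity)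
  calc ∑ d ∈ (Finset.Ioc 0 N).filter (fun d => 2 ∣ d),
        ArithmeticFunction.vonMangoldt d / (d : ℝ)
      = ∑ d ∈ ((Finset.Ioc 0 N).filter (fun d => 2 ∣ d)).filter
          (fun d => ArithmeticFunction.vonMangoldt d / (d : ℝ) ≠ 0),
          ArithmeticFunction.vonMangoldt d / (d : ℝ) := by
        rw [Finset.sum_filter_ne_zero]
    _ ≤ ∑ d ∈ (Finset.Icc 1 N).image (fun k : ℕ => 2 ^ k),
          ArithmeticFunction.vonMangoldt d / (d : ℝ) :=
        Finset.sum_le_sum_of_subset_of_nonneg hsub (fun d _ _ => hnn d)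
    _ ≤ ∑ k ∈ Finset.Icc 1 N, ArithmeticFunction.vonMangoldt (2 ^ k) / ((2 ^ k : ℕ) : ℝ) :=
        Finset.sum_image_le_of_nonneg (fun d _ => hnn d)
    _ ≤ ∑ k ∈ Finset.Icc 1 N, (1 / 2 : ℝ) ^ k := Finset.sum_le_sum hterm
    _ ≤ 1 := geom_half_le N
    _ ≤ 2 := by norm_num

end Vale.Agent.Lib.P015
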