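import Mathlib
import Vale.Agent.Lib.P015.Log.Defs

/-!
# P015: the first theorem of Mertens for the von Mangoldt function
-/

namespace Vale.Agent.Lib.P015

open Finset ArithmeticFunction

private theorem sum_log_le (N : ℕ) : ∑ n ∈ Ioc 0 N, Real.log n ≤ N * Real.log N := by
  calc ∑ n ∈ Ioc 0 N, Real.log n ≤ ∑ _n ∈ Ioc 0 N, Real.log N := by
        apply Finset.sum_le_sum
        intro n hn
        rw [Finset.mem_Ioc] at hn
        exact Real.log_le_log (by exact_mod_cast hn.1) (by exact_mod_cast hn.2)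
    _ = N * Real.log N := by simp

private theorem sum_log_ge (N : ℕ) :
    (N : ℝ) * Real.log N - N ≤ ∑ n ∈ Ioc 0 N, Real.log n := by
  induction N with
  | zero => simp
  | succ N ih =>
    rw [Finset.sum_Ioc_succ_top (Nat.zero_le N)]
    rcases Nat.eq_zero_or_pos N with rfl | hN
    · simp
    · have hNpos : (0 : ℝ) < N := by exact_mod_cast hN
      have h1 : Real.log ((N : ℝ) + 1) - Real.log N ≤ 1 / N := by
        rw [← Real.log_div (by linarith) hNpos.ne']
        have h := Real.log_le_sub_one_of_pos (show (0 : ℝ) < ((N : ℝ) + 1) / N by positivity)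
        have e : ((N : ℝ) + 1) / N - 1 = 1 / N := by field_simp; ring
        linarith
      have h2 : (N : ℝ) * (Real.log ((N : ℝ) + 1) - Real.log N) ≤ 1 := by
        have h := mul_le_mul_of_nonneg_left h1 hNpos.le
        rwa [mul_one_div_cancel hNpos.ne'] at h
      push_cast
      linarith

theorem mertens_vonMangoldt : ∃ C : ℝ, ∀ N : ℕ, 1 ≤ N →
    |∑ n ∈ Finset.Ioc 0 N, ArithmeticFunction.vonMangoldt n / (n : ℝ) - Real.log N| ≤ C := by
  refine ⟨Real.log 4 + 4, fun N hN => ?_⟩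
  have hNpos : (0 : ℝ) < N := by exact_mod_cast hN
  have hid : ∑ n ∈ Ioc 0 N, Real.log n
      = ∑ n ∈ Ioc 0 N, vonMangoldt n * ((N / n : ℕ) : ℝ) := by
    have h := sum_Ioc_mul_zeta_eq_sum vonMangoldt N
    rw [vonMangoldt_mul_zeta] at h
    simpa using h
  have hNS : (N : ℝ) * ∑ n ∈ Ioc 0 N, vonMangoldt n / (n : ℝ)
      = ∑ n ∈ Ioc 0 N, vonMangoldt n * ((N : ℝ) / n) := by
    rw [Finset.mul_sum]
    refine Finset.sum_congr rfl fun n _ => ?_
    ring
  have hup : ∑ n ∈ Ioc 0 N, vonMangoldt n * ((N / n : ℕ) : ℝ)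
      ≤ (N : ℝ) * ∑ n ∈ Ioc 0 N, vonMangoldt n / (n : ℝ) := by
    rw [hNS]
    apply Finset.sum_le_sum
    intro n _
    exact mul_le_mul_of_nonneg_left Nat.cast_div_le vonMangoldt_nonneg
  have hpsi : ∑ n ∈ Ioc 0 N, vonMangoldt n ≤ (Real.log 4 + 4) * N := by
    have h := Chebyshev.psi_le_const_mul_self (x := (N : ℝ)) hNpos.le
    unfold Chebyshev.psi at h
    rwa [Nat.floor_natCast] at h
  have hlow : (N : ℝ) * (∑ n ∈ Ioc 0 N, vonMangoldt n / (n : ℝ))
      - ∑ n ∈ Ioc 0 N, vonMangoldt n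
      ≤ ∑ n ∈ Ioc 0 N, vonMangoldt n * ((N / n : ℕ) : ℝ) := by
    rw [hNS, ← Finset.sum_sub_distrib]
    apply Finset.sum_le_sum
    intro n hn
    rw [Finset.mem_Ioc] at hn
    have hfl : (N : ℝ) / n - 1 ≤ ((N / n : ℕ) : ℝ) := by
      have h := Nat.lt_floor_add_one ((N : ℝ) / n)
      rw [Nat.floor_div_eq_div] at h
      linarith
    have hL := vonMangoldt_nonneg (n := n)
    nlinarith
  have h1 := sum_log_le N
  have h2 := sum_log_ge N
  generalize (∑ n ∈ Ioc 0 N, vonMangoldt n / (n : ℝ)) = S at hup hlow ⊢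
  rw [abs_le]
  have hlog4 : 0 ≤ Real.log 4 := Real.log_nonneg (by norm_num)
  constructor
  · have h3 : (N : ℝ) * (Real.log N - 1) ≤ (N : ℝ) * S := by linarith
    have h4 := le_of_mul_le_mul_left h3 hNpos
    linarith
  · have h3 : (N : ℝ) * S ≤ (N : ℝ) * (Real.log N + (Real.log 4 + 4)) := by linarith
    have h4 := le_of_mul_le_mul_left h3 hNpos
    linarith

end Vale.Agent.Lib.P015
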