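import Mathlib
import Vale.Agent.Lib.P015.Log.Defs

/-!
# P015: the sum of `1 / d` over proper prime powers is at most one
-/

namespace Vale.Agent.Lib.P015

/-- A geometric sum identity for the sum of `x ^ k` over `2 ≤ k ≤ n + 1`. -/
private theorem geom_Icc_two_aux (x : ℝ) (n : ℕ) :
    (1 - x) * ∑ k ∈ Finset.Icc 2 (n + 1), x ^ k = x ^ 2 - x ^ (n + 2) := by
  induction n with
  | zero => simp
  | succ n ih =>
    rw [Finset.sum_Icc_succ_top (by omega), mul_add, ih]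
    ring

/-- For `0 ≤ x < 1` the sum of `x ^ k` over `2 ≤ k ≤ N` is at most `x ^ 2 / (1 - x)`. -/
private theorem geom_Icc_two_le (x : ℝ) (hx0 : 0 ≤ x) (hx1 : x < 1) (N : ℕ) :
    ∑ k ∈ Finset.Icc 2 N, x ^ k ≤ x ^ 2 / (1 - x) := by
  have h1x : 0 < 1 - x := by linarith
  rw [le_div_iff₀ h1x]
  rcases Nat.eq_zero_or_pos N with rfl | hN
  · simp
    positivity
  · obtain ⟨n, rfl⟩ : ∃ n, N = n + 1 := ⟨N - 1, by omega⟩
    have h := geom_Icc_two_aux x n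
    have h2 : 0 ≤ x ^ (n + 2) := pow_nonneg hx0 _
    nlinarith

/-- The inner sum for a fixed base `m ≥ 2`. -/
private theorem inner_le (m : ℕ) (hm : 2 ≤ m) (N : ℕ) :
    ∑ k ∈ Finset.Icc 2 N, 1 / ((m ^ k : ℕ) : ℝ) ≤ 1 / ((m : ℝ) - 1) - 1 / (m : ℝ) := by
  have hm' : (2 : ℝ) ≤ (m : ℝ) := by exact_mod_cast hm
  have hm0 : (0 : ℝ) < (m : ℝ) := by linarith
  have hm1 : (0 : ℝ) < (m : ℝ) - 1 := by linarith
  have hx0 : (0 : ℝ) ≤ 1 / (m : ℝ) := by positivity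
  have hx1 : 1 / (m : ℝ) < 1 := by
    rw [div_lt_one hm0]
    linarith
  have h := geom_Icc_two_le (1 / (m : ℝ)) hx0 hx1 N
  have h2 : ∑ k ∈ Finset.Icc 2 N, 1 / ((m ^ k : ℕ) : ℝ) =
      ∑ k ∈ Finset.Icc 2 N, (1 / (m : ℝ)) ^ k := by
    refine Finset.sum_congr rfl (fun k _ => ?_)
    rw [Nat.cast_pow, one_div_pow]
  have h3 : (1 / (m : ℝ)) ^ 2 / (1 - 1 / (m : ℝ)) = 1 / ((m : ℝ) - 1) - 1 / (m : ℝ) := by
    field_simp
    ring
  rw [h2]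
  rw [h3] at h
  exact h

/-- Telescoping sum. -/
private theorem telescope_aux (n : ℕ) :
    ∑ m ∈ Finset.Icc 2 (n + 1), (1 / ((m : ℝ) - 1) - 1 / (m : ℝ)) = 1 - 1 / ((n : ℝ) + 1) := by
  induction n with
  | zero => simp
  | succ n ih =>
    rw [Finset.sum_Icc_succ_top (by omega), ih]
    push_cast
    have h1 : ((n : ℝ) + 1) ≠ 0 := by positivity
    have h2 : ((n : ℝ) + 1 + 1) ≠ 0 := by positivity
    field_simp
    ring

private theorem telescope_le (N : ℕ) :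
    ∑ m ∈ Finset.Icc 2 N, (1 / ((m : ℝ) - 1) - 1 / (m : ℝ)) ≤ 1 := by
  rcases Nat.eq_zero_or_pos N with rfl | hN
  · simp
  · obtain ⟨n, rfl⟩ : ∃ n, N = n + 1 := ⟨N - 1, by omega⟩
    rw [telescope_aux]
    have h : (0 : ℝ) ≤ 1 / ((n : ℝ) + 1) := by positivity
    linarith

theorem sum_inv_properPrimePow_le (N : ℕ) :
    ∑ d ∈ (Finset.Ioc 0 N).filter (fun d => IsPrimePow d ∧ ¬ d.Prime), 1 / (d : ℝ) ≤ 1 := by
  classical
  have hsub : (Finset.Ioc 0 N).filter (fun d => IsPrimePow d ∧ ¬ d.Prime) ⊆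
      (Finset.Icc 2 N ×ˢ Finset.Icc 2 N).image (fun x : ℕ × ℕ => x.1 ^ x.2) := by
    intro d hd
    rw [Finset.mem_filter, Finset.mem_Ioc] at hd
    obtain ⟨⟨hd0, hdN⟩, hpp, hnp⟩ := hd
    rw [isPrimePow_nat_iff] at hpp
    obtain ⟨p, k, hp, hk, rfl⟩ := hpp
    have hk2 : 2 ≤ k := by
      by_contra hlt
      have hk1 : k = 1 := by omega
      rw [hk1, pow_one] at hnp
      exact hnp hp
    have hp2 : 2 ≤ p := hp.two_le
    have hpN : p ≤ N := le_trans (Nat.le_self_pow (by omega) p) hdN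
    have hkN : k ≤ N := by
      have h1 : k < 2 ^ k := Nat.lt_two_pow_self
      have h2 : 2 ^ k ≤ p ^ k := Nat.pow_le_pow_left hp2 k
      omega
    rw [Finset.mem_image]
    exact ⟨(p, k), Finset.mem_product.2 ⟨Finset.mem_Icc.2 ⟨hp2, hpN⟩, Finset.mem_Icc.2 ⟨hk2, hkN⟩⟩,
      rfl⟩
  calc ∑ d ∈ (Finset.Ioc 0 N).filter (fun d => IsPrimePow d ∧ ¬ d.Prime), 1 / (d : ℝ)
      ≤ ∑ d ∈ (Finset.Icc 2 N ×ˢ Finset.Icc 2 N).image (fun x : ℕ × ℕ => x.1 ^ x.2),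
          1 / (d : ℝ) :=
        Finset.sum_le_sum_of_subset_of_nonneg hsub (fun d _ _ => by positivity)
    _ ≤ ∑ x ∈ Finset.Icc 2 N ×ˢ Finset.Icc 2 N, 1 / ((x.1 ^ x.2 : ℕ) : ℝ) :=
        Finset.sum_image_le_of_nonneg (fun d _ => by positivity)
    _ = ∑ m ∈ Finset.Icc 2 N, ∑ k ∈ Finset.Icc 2 N, 1 / ((m ^ k : ℕ) : ℝ) := by
        rw [Finset.sum_product]
    _ ≤ ∑ m ∈ Finset.Icc 2 N, (1 / ((m : ℝ) - 1) - 1 / (m : ℝ)) :=
        Finset.sum_le_sum (fun m hm => inner_le m (Finset.mem_Icc.1 hm).1 N)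
    _ ≤ 1 := telescope_le N

end Vale.Agent.Lib.P015
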