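import Mathlib
import Vale.Agent.Lib.P015.Log.Defs

namespace Vale.Agent.Lib.P015

open Finset

private theorem log_le_four_sqrt_sqrt (x : ℝ) (hx : 0 < x) :
    Real.log x ≤ 4 * Real.sqrt (Real.sqrt x) := by
  have hs : 0 < Real.sqrt (Real.sqrt x) := Real.sqrt_pos.2 (Real.sqrt_pos.2 hx)
  have h1 : Real.log (Real.sqrt (Real.sqrt x)) ≤ Real.sqrt (Real.sqrt x) - 1 :=
    Real.log_le_sub_one_of_pos hs
  have h2 : Real.log (Real.sqrt (Real.sqrt x)) = Real.log x / 4 := by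
    rw [Real.log_sqrt (Real.sqrt_nonneg x), Real.log_sqrt hx.le]
    ring
  linarith

private theorem tail_small (A y : ℕ) (hA : 1 ≤ A) (hy : 4096 * A ^ 3 ≤ y) :
    2 * Real.sqrt ((A * y : ℕ) : ℝ) * Real.log ((A * y : ℕ) : ℝ) ≤ (y : ℝ) := by
  have hA0 : (0 : ℝ) < A := by exact_mod_cast hA
  have hy' : (4096 : ℝ) * (A : ℝ) ^ 3 ≤ y := by exact_mod_cast hy
  have hy0 : (0 : ℝ) < y := lt_of_lt_of_le (by positivity) hy'
  have hx' : ((A * y : ℕ) : ℝ) = (A : ℝ) * y := by push_cast; ring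
  rw [hx']
  have hxpos : 0 < (A : ℝ) * y := by positivity
  have hspos : 0 < Real.sqrt (Real.sqrt ((A : ℝ) * y)) :=
    Real.sqrt_pos.2 (Real.sqrt_pos.2 hxpos)
  have hs2 : Real.sqrt (Real.sqrt ((A : ℝ) * y)) ^ 2 = Real.sqrt ((A : ℝ) * y) :=
    Real.sq_sqrt (Real.sqrt_nonneg _)
  have hs4 : Real.sqrt (Real.sqrt ((A : ℝ) * y)) ^ 4 = (A : ℝ) * y := by
    have : Real.sqrt (Real.sqrt ((A : ℝ) * y)) ^ 4 =
        (Real.sqrt (Real.sqrt ((A : ℝ) * y)) ^ 2) ^ 2 := by ring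
    rw [this, hs2, Real.sq_sqrt hxpos.le]
  have hlog := log_le_four_sqrt_sqrt ((A : ℝ) * y) hxpos
  generalize Real.sqrt (Real.sqrt ((A : ℝ) * y)) = s at hspos hs2 hs4 hlog
  have hs8 : 8 * (A : ℝ) ≤ s := by
    have h : (8 * (A : ℝ)) ^ 4 ≤ s ^ 4 := by
      rw [hs4]
      have h1 := mul_le_mul_of_nonneg_left hy' hA0.le
      have e : (8 * (A : ℝ)) ^ 4 = (A : ℝ) * (4096 * (A : ℝ) ^ 3) := by ring
      rw [e]
      exact h1
    exact le_of_pow_le_pow_left₀ (by norm_num) hspos.le h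
  rw [← hs2]
  calc 2 * s ^ 2 * Real.log ((A : ℝ) * y) ≤ 2 * s ^ 2 * (4 * s) := by gcongr
    _ = 8 * s ^ 3 := by ring
    _ ≤ y := by
      have h3 : 8 * s ^ 3 * A ≤ s ^ 3 * s :=by
        have := mul_le_mul_of_nonneg_left hs8 (pow_pos hspos 3).le
        linarith
      have h4 : (A : ℝ) * (8 * s ^ 3) ≤ A * y := by
        have e : s ^ 3 * s = s ^ 4 := by ring
        rw [e, hs4] at h3
        linarith
      exact le_of_mul_le_mul_left h4 hA0

theorem primes_one_mod_four_supply_of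
    (hM : ∃ C : ℝ, ∀ N : ℕ, 1 ≤ N →
      |∑ d ∈ (Finset.Ioc 0 N).filter (fun d => d % 4 = 1),
          ArithmeticFunction.vonMangoldt d / (d : ℝ) - Real.log N / 2| ≤ C) :
    ∃ A y₀ : ℕ, 2 ≤ A ∧ ∀ y : ℕ, y₀ ≤ y →
      3 * (y : ℝ) / Real.log y ≤
        (((Finset.Ioc y (A * y)).filter (fun p => p.Prime ∧ p % 4 = 1)).card : ℝ) := by
  obtain ⟨C, hC⟩ := hM
  obtain ⟨A, hA2, hAr⟩ : ∃ A : ℕ, 2 ≤ A ∧ Real.exp (4 * C + 8) ≤ (A : ℝ) := by
    refine ⟨⌈Real.exp (4 * C + 8)⌉₊ + 2, Nat.le_add_left 2 _, ?_⟩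
    have := Nat.le_ceil (Real.exp (4 * C + 8))
    push_cast
    linarith
  have hA1 : 1 ≤ A := by omega
  have hArpos : (0 : ℝ) < A := by exact_mod_cast hA1
  have hlogA : 4 * C + 8 ≤ Real.log A := by
    rw [Real.le_log_iff_exp_le hArpos]
    exact hAr
  refine ⟨A, 4096 * A ^ 3, hA2, ?_⟩
  intro y hy
  have hy3 : 3 ≤ y := by
    have : 1 ≤ A ^ 3 := Nat.one_le_pow _ _ (by omega)
    omega
  have hy1 : 1 ≤ y := by omega
  have hAy1 : 1 ≤ A * y := Nat.mul_pos (by omega) (by omega)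
  have hyAy : y ≤ A * y := Nat.le_mul_of_pos_left y (by omega)
  have hyr : (3 : ℝ) ≤ y := by exact_mod_cast hy3
  have hy0 : (0 : ℝ) < y := by linarith
  have h1 := hC y hy1
  have h2 := hC (A * y) hAy1
  have hsplit : ∑ d ∈ (Finset.Ioc 0 (A * y)).filter (fun d => d % 4 = 1),
        ArithmeticFunction.vonMangoldt d / (d : ℝ)
      = ∑ d ∈ (Finset.Ioc 0 y).filter (fun d => d % 4 = 1),
          ArithmeticFunction.vonMangoldt d / (d : ℝ)
        + ∑ d ∈ (Finset.Ioc y (A * y)).filter (fun d => d % 4 = 1),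
          ArithmeticFunction.vonMangoldt d / (d : ℝ) := by
    rw [← Finset.Ioc_union_Ioc_eq_Ioc (Nat.zero_le y) hyAy, Finset.filter_union,
      Finset.sum_union]
    apply Finset.disjoint_filter_filter
    exact Finset.Ioc_disjoint_Ioc_of_le le_rfl
  have hlogmul : Real.log ((A * y : ℕ) : ℝ) = Real.log A + Real.log y := by
    push_cast
    rw [Real.log_mul hArpos.ne' hy0.ne']
  have hlow : 4 ≤ ∑ d ∈ (Finset.Ioc y (A * y)).filter (fun d => d % 4 = 1),
      ArithmeticFunction.vonMangoldt d / (d : ℝ) := by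
    rw [abs_le] at h1 h2
    rw [hsplit, hlogmul] at h2
    linarith [h1.1, h1.2, h2.1, h2.2]
  set T := (Finset.Ioc y (A * y)).filter (fun d => d % 4 = 1) with hT
  have hTsplit : ∑ d ∈ T, ArithmeticFunction.vonMangoldt d / (d : ℝ) =
      ∑ d ∈ T.filter (fun d => d.Prime), ArithmeticFunction.vonMangoldt d / (d : ℝ) +
        ∑ d ∈ T.filter (fun d => ¬ d.Prime), ArithmeticFunction.vonMangoldt d / (d : ℝ) :=
    (Finset.sum_filter_add_sum_filter_not T _ _).symm
  have hnp : ∑ d ∈ T.filter (fun d => ¬ d.Prime),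
      ArithmeticFunction.vonMangoldt d / (d : ℝ) ≤ 1 := by
    have hstep1 : ∑ d ∈ T.filter (fun d => ¬ d.Prime),
        ArithmeticFunction.vonMangoldt d / (d : ℝ) ≤
        ∑ d ∈ T.filter (fun d => ¬ d.Prime), ArithmeticFunction.vonMangoldt d / (y : ℝ) := by
      apply Finset.sum_le_sum
      intro d hd
      rw [Finset.mem_filter, hT, Finset.mem_filter, Finset.mem_Ioc] at hd
      have hyd : (y : ℝ) ≤ d := by exact_mod_cast hd.1.1.1.le
      exact div_le_div_of_nonneg_left ArithmeticFunction.vonMangoldt_nonneg hy0 hyd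
    have hstep2 : ∑ d ∈ T.filter (fun d => ¬ d.Prime),
        ArithmeticFunction.vonMangoldt d / (y : ℝ) ≤
        ∑ d ∈ (Finset.Ioc 0 (A * y)).filter (fun d => ¬ d.Prime),
          ArithmeticFunction.vonMangoldt d / (y : ℝ) := by
      apply Finset.sum_le_sum_of_subset_of_nonneg
      · intro d hd
        rw [Finset.mem_filter, hT, Finset.mem_filter, Finset.mem_Ioc] at hd
        rw [Finset.mem_filter, Finset.mem_Ioc]
        exact ⟨⟨by omega, hd.1.1.2⟩, hd.2⟩
      · intro d _ _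
        exact div_nonneg ArithmeticFunction.vonMangoldt_nonneg hy0.le
    have hstep3 : ∑ d ∈ (Finset.Ioc 0 (A * y)).filter (fun d => ¬ d.Prime),
        ArithmeticFunction.vonMangoldt d / (y : ℝ) =
        (Chebyshev.psi ((A * y : ℕ) : ℝ) - Chebyshev.theta ((A * y : ℕ) : ℝ)) / y := by
      rw [Chebyshev.psi_sub_theta_eq_sum_not_prime, Nat.floor_natCast, Finset.sum_div]
    have hstep4 := Chebyshev.psi_sub_theta_le (x := ((A * y : ℕ) : ℝ)) (by exact_mod_cast hAy1)
    have hstep5 := tail_small A y hA1 hy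
    have hstep6 : (Chebyshev.psi ((A * y : ℕ) : ℝ) - Chebyshev.theta ((A * y : ℕ) : ℝ)) / y
        ≤ 1 := by
      rw [div_le_one hy0]
      linarith
    linarith
  have hpr : ∑ d ∈ T.filter (fun d => d.Prime), ArithmeticFunction.vonMangoldt d / (d : ℝ) ≤
      ((T.filter (fun d => d.Prime)).card : ℝ) * (Real.log y / y) := by
    rw [← nsmul_eq_mul]
    apply Finset.sum_le_card_nsmul
    intro d hd
    rw [Finset.mem_filter, hT, Finset.mem_filter, Finset.mem_Ioc] at hd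
    rw [ArithmeticFunction.vonMangoldt_apply_prime hd.2]
    have hyd : (y : ℝ) ≤ d := by exact_mod_cast hd.1.1.1.le
    have he : Real.exp 1 ≤ (y : ℝ) := by
      have := Real.exp_one_lt_three
      linarith
    exact Real.log_div_self_antitoneOn (Set.mem_Ici.2 he) (Set.mem_Ici.2 (le_trans he hyd)) hyd
  have hfilt : T.filter (fun d => d.Prime) =
      (Finset.Ioc y (A * y)).filter (fun p => p.Prime ∧ p % 4 = 1) := by
    rw [hT, Finset.filter_filter]
    apply Finset.filter_congr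
    intro d _
    exact and_comm
  rw [← hfilt]
  have hlogy : 0 < Real.log y := Real.log_pos (by linarith)
  rw [div_le_iff₀ hlogy]
  have hfin : 3 ≤ ((T.filter (fun d => d.Prime)).card : ℝ) * (Real.log y / y) := by linarith
  have h5 := mul_le_mul_of_nonneg_right hfin hy0.le
  have e : ((T.filter (fun d => d.Prime)).card : ℝ) * (Real.log y / y) * y =
      ((T.filter (fun d => d.Prime)).card : ℝ) * Real.log y := by
    field_simp
  linarith

end Vale.Agent.Lib.P015
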