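import Mathlib
import Vale.Agent.Lib.P015.Log.Defs

namespace Vale.Agent.Lib.P015

open Finset

/-- The twisted von Mangoldt weight `chi4 d * Λ d / d` as an arithmetic function. -/
private noncomputable def fTw : ArithmeticFunction ℝ :=
  ⟨fun d => chi4 d * ArithmeticFunction.vonMangoldt d / (d : ℝ), by simp⟩

/-- The weight `chi4 m / m` as an arithmetic function. -/
private noncomputable def gTw : ArithmeticFunction ℝ :=
  ⟨fun m => chi4 m / (m : ℝ), by simp⟩

private theorem fTw_apply (d : ℕ) :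
    fTw d = chi4 d * ArithmeticFunction.vonMangoldt d / (d : ℝ) := rfl

private theorem gTw_apply (m : ℕ) : gTw m = chi4 m / (m : ℝ) := rfl

private theorem fg_apply (hmul : ∀ a b : ℕ, chi4 (a * b) = chi4 a * chi4 b) (n : ℕ)
    (hn : n ≠ 0) :
    (fTw * gTw) n = chi4 n * (Real.log n / (n : ℝ)) := by
  rw [ArithmeticFunction.mul_apply, Nat.sum_divisorsAntidiagonal (fun a b => fTw a * gTw b)]
  have h : ∀ i ∈ n.divisors,
      fTw i * gTw (n / i) = chi4 n / (n : ℝ) * ArithmeticFunction.vonMangoldt i := by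
    intro i hi
    have hdvd : i ∣ n := Nat.dvd_of_mem_divisors hi
    have hmul' : i * (n / i) = n := Nat.mul_div_cancel' hdvd
    have hi0 : i ≠ 0 := by
      rintro rfl
      simp at hmul'
      exact hn hmul'.symm
    have hni0 : n / i ≠ 0 := by
      intro h0
      rw [h0] at hmul'
      simp at hmul'
      exact hn hmul'.symm
    have hi0' : (i : ℝ) ≠ 0 := by exact_mod_cast hi0
    have hni0' : ((n / i : ℕ) : ℝ) ≠ 0 := by exact_mod_cast hni0
    rw [fTw_apply, gTw_apply]
    have e1 : chi4 n = chi4 i * chi4 (n / i) := by rw [← hmul, hmul']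
    have e2 : (n : ℝ) = (i : ℝ) * ((n / i : ℕ) : ℝ) := by rw [← Nat.cast_mul, hmul']
    rw [e1, e2]
    field_simp
  rw [Finset.sum_congr rfl h, ← Finset.mul_sum, ArithmeticFunction.vonMangoldt_sum]
  ring

theorem chi4_log_identity (hmul : ∀ a b : ℕ, chi4 (a * b) = chi4 a * chi4 b) (N : ℕ) :
    ∑ n ∈ Finset.Ioc 0 N, chi4 n * (Real.log n / (n : ℝ)) =
      ∑ d ∈ Finset.Ioc 0 N,
        chi4 d * ArithmeticFunction.vonMangoldt d / (d : ℝ) * Achi (N / d) := by
  have h := ArithmeticFunction.sum_Ioc_mul_eq_sum_sum fTw gTw N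
  have h1 : ∑ n ∈ Finset.Ioc 0 N, (fTw * gTw) n =
      ∑ n ∈ Finset.Ioc 0 N, chi4 n * (Real.log n / (n : ℝ)) := by
    apply Finset.sum_congr rfl
    intro n hn
    rw [Finset.mem_Ioc] at hn
    exact fg_apply hmul n (by omega)
  rw [← h1, h]
  apply Finset.sum_congr rfl
  intro d _
  rfl

theorem chi4_vonMangoldt_bounded_of
    (hmul : ∀ a b : ℕ, chi4 (a * b) = chi4 a * chi4 b)
    (habs : ∀ a : ℕ, |chi4 a| ≤ 1)
    (hA : ∀ N : ℕ, 1 ≤ N → 1 / 2 ≤ Achi N)
    (hT : ∀ M N : ℕ, M ≤ N → |Achi N - Achi M| ≤ 1 / ((M : ℝ) + 1))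
    (hB : ∀ N : ℕ, |∑ n ∈ Finset.Ioc 0 N, chi4 n * (Real.log n / (n : ℝ))| ≤ 1) :
    ∃ C : ℝ, ∀ N : ℕ,
      |∑ d ∈ Finset.Ioc 0 N, chi4 d * ArithmeticFunction.vonMangoldt d / (d : ℝ)| ≤ C := by
  refine ⟨2 * (Real.log 4 + 5), ?_⟩
  intro N
  have hlog4 : 0 ≤ Real.log 4 := Real.log_nonneg (by norm_num)
  rcases Nat.eq_zero_or_pos N with h0 | hpos
  · subst h0
    rw [Finset.Ioc_self, Finset.sum_empty, abs_zero]
    linarith
  have hid := chi4_log_identity hmul N
  have hNr : (0 : ℝ) < N := by exact_mod_cast hpos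
  have hAN := hA N hpos
  have hBN := hB N
  set F := ∑ d ∈ Finset.Ioc 0 N, chi4 d * ArithmeticFunction.vonMangoldt d / (d : ℝ) with hF
  set E := ∑ d ∈ Finset.Ioc 0 N,
    chi4 d * ArithmeticFunction.vonMangoldt d / (d : ℝ) * (Achi N - Achi (N / d)) with hE
  have hsplit : ∑ d ∈ Finset.Ioc 0 N,
      chi4 d * ArithmeticFunction.vonMangoldt d / (d : ℝ) * Achi (N / d) = F * Achi N - E := by
    rw [hF, hE, Finset.sum_mul, ← Finset.sum_sub_distrib]
    apply Finset.sum_congr rfl
    intro d _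
    ring
  have hEb : |E| ≤ Real.log 4 + 4 := by
    have h1 : |E| ≤ ∑ d ∈ Finset.Ioc 0 N, ArithmeticFunction.vonMangoldt d / (N : ℝ) := by
      rw [hE]
      refine le_trans (Finset.abs_sum_le_sum_abs _ _) ?_
      apply Finset.sum_le_sum
      intro d hd
      rw [Finset.mem_Ioc] at hd
      have hd0 : (0 : ℝ) < d := by exact_mod_cast hd.1
      have hL : 0 ≤ ArithmeticFunction.vonMangoldt d := ArithmeticFunction.vonMangoldt_nonneg
      have ht := hT (N / d) N (Nat.div_le_self N d)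
      have hlt : (N : ℝ) < (d : ℝ) * (((N / d : ℕ) : ℝ) + 1) := by
        have := Nat.lt_mul_div_succ N hd.1
        exact_mod_cast this
      have hk : 1 / (((N / d : ℕ) : ℝ) + 1) ≤ (d : ℝ) / N := by
        rw [div_le_div_iff₀ (by positivity) hNr]
        linarith
      rw [abs_mul, abs_div, abs_mul, abs_of_nonneg hL, abs_of_pos hd0]
      calc |chi4 d| * ArithmeticFunction.vonMangoldt d / (d : ℝ) * |Achi N - Achi (N / d)|
          ≤ 1 * ArithmeticFunction.vonMangoldt d / (d : ℝ) * ((d : ℝ) / N) := by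
            gcongr
            · exact habs d
            · exact le_trans ht hk
        _ = ArithmeticFunction.vonMangoldt d / (N : ℝ) := by
            field_simp
    have h2 : ∑ d ∈ Finset.Ioc 0 N, ArithmeticFunction.vonMangoldt d / (N : ℝ) =
        Chebyshev.psi N / N := by
      rw [← Finset.sum_div, Chebyshev.psi, Nat.floor_natCast]
    have h3 := Chebyshev.psi_le_const_mul_self (x := (N : ℝ)) hNr.le
    have h4 : Chebyshev.psi N / N ≤ Real.log 4 + 4 := by
      rw [div_le_iff₀ hNr]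
      exact h3
    linarith
  rw [hid, hsplit] at hBN
  have h5 : |F * Achi N| ≤ 1 + (Real.log 4 + 4) := by
    have : F * Achi N = (F * Achi N - E) + E := by ring
    rw [this]
    exact le_trans (abs_add_le _ _) (add_le_add hBN hEb)
  rw [abs_mul, abs_of_pos (by linarith : (0 : ℝ) < Achi N)] at h5
  have h6 : |F| * (1 / 2) ≤ |F| * Achi N := mul_le_mul_of_nonneg_left hAN (abs_nonneg F)
  linarith

end Vale.Agent.Lib.P015
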