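import Mathlib
import Vale.Agent.Lib.P015.Log.Defs
import Vale.Agent.Lib.P015.Log.Mertens
import Vale.Agent.Lib.P015.Log.Chi
import Vale.Agent.Lib.P015.Log.Twist
import Vale.Agent.Lib.P015.Log.Even
import Vale.Agent.Lib.P015.Log.Abel
import Vale.Agent.Lib.P015.Log.PrimePow
import Vale.Agent.Lib.P015.Log.Supply

/-!
# P015: Mertens-type estimates for the primes congruent to one modulo four
-/

namespace Vale.Agent.Lib.P015

open ArithmeticFunction

theorem chi4_vonMangoldt_bounded : ∃ C : ℝ, ∀ N : ℕ,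
    |∑ d ∈ Finset.Ioc 0 N, chi4 d * ArithmeticFunction.vonMangoldt d / (d : ℝ)| ≤ C :=
  chi4_vonMangoldt_bounded_of chi4_mul abs_chi4_le Achi_ge Achi_tail Bchi_abs_le

/-- Mertens' theorem for the residue class `1` modulo `4` (prime powers included). -/
theorem mertens_one_mod_four : ∃ C : ℝ, ∀ N : ℕ, 1 ≤ N →
    |∑ d ∈ (Finset.Ioc 0 N).filter (fun d => d % 4 = 1),
        ArithmeticFunction.vonMangoldt d / (d : ℝ) - Real.log N / 2| ≤ C := by
  obtain ⟨C₁, h₁⟩ := mertens_vonMangoldt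
  obtain ⟨C₂, h₂⟩ := chi4_vonMangoldt_bounded
  refine ⟨(C₁ + 2 + C₂) / 2, fun N hN => ?_⟩
  have hE := vonMangoldt_even_sum_le N
  have hE0 : 0 ≤ ∑ d ∈ (Finset.Ioc 0 N).filter (fun d => 2 ∣ d),
      ArithmeticFunction.vonMangoldt d / (d : ℝ) :=
    Finset.sum_nonneg (fun d _ => div_nonneg ArithmeticFunction.vonMangoldt_nonneg
      (Nat.cast_nonneg d))
  have key : ∑ d ∈ (Finset.Ioc 0 N).filter (fun d => d % 4 = 1),
        ArithmeticFunction.vonMangoldt d / (d : ℝ)
      = (∑ n ∈ Finset.Ioc 0 N, ArithmeticFunction.vonMangoldt n / (n : ℝ)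
        - ∑ d ∈ (Finset.Ioc 0 N).filter (fun d => 2 ∣ d),
            ArithmeticFunction.vonMangoldt d / (d : ℝ)
        + ∑ d ∈ Finset.Ioc 0 N, chi4 d * ArithmeticFunction.vonMangoldt d / (d : ℝ)) / 2 := by
    rw [Finset.sum_filter, Finset.sum_filter, ← Finset.sum_sub_distrib,
      ← Finset.sum_add_distrib, Finset.sum_div]
    apply Finset.sum_congr rfl
    intro d _
    unfold chi4
    rcases (by omega : d % 4 = 0 ∨ d % 4 = 1 ∨ d % 4 = 2 ∨ d % 4 = 3) with h | h | h | h
    · have h2 : 2 ∣ d := by omega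
      simp [h, h2]
    · have h2 : ¬ 2 ∣ d := by omega
      simp [h, h2]
      try ring
    · have h2 : 2 ∣ d := by omega
      simp [h, h2]
    · have h2 : ¬ 2 ∣ d := by omega
      simp [h, h2]
      try ring
  rw [key]
  have h1 := abs_le.1 (h₁ N hN)
  have h2 := abs_le.1 (h₂ N)
  rw [abs_le]
  constructor <;> linarith

/-- The sum of the reciprocals of the primes congruent to `1` modulo `4` up to `N` is at
least `log (log (N + 1)) / 2 - C`. -/
theorem sum_inv_primes_one_mod_four : ∃ C : ℝ, ∀ N : ℕ, 2 ≤ N →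
    Real.log (Real.log ((N : ℝ) + 1)) / 2 - C
      ≤ ∑ p ∈ (Finset.Ioc 0 N).filter (fun p => p.Prime ∧ p % 4 = 1), 1 / (p : ℝ) := by
  obtain ⟨C₀, h₀⟩ := mertens_one_mod_four
  set C : ℝ := |C₀| with hC
  have hC0 : 0 ≤ C := abs_nonneg _
  set a : ℕ → ℝ := fun n => if n % 4 = 1 then ArithmeticFunction.vonMangoldt n / (n : ℝ) else 0
    with ha
  have ha0 : ∀ n, 0 ≤ a n := by
    intro n
    simp only [ha]
    split_ifs
    · exact div_nonneg ArithmeticFunction.vonMangoldt_nonneg (Nat.cast_nonneg n)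
    · exact le_refl _
  have ha1 : a 1 = 0 := by simp [ha]
  have hT : ∀ N : ℕ, 1 ≤ N → Real.log N / 2 - C ≤ ∑ n ∈ Finset.Ioc 0 N, a n := by
    intro N hN
    have h1 := abs_le.1 (h₀ N hN)
    have h2 : ∑ n ∈ Finset.Ioc 0 N, a n
        = ∑ d ∈ (Finset.Ioc 0 N).filter (fun d => d % 4 = 1),
          ArithmeticFunction.vonMangoldt d / (d : ℝ) := by
      rw [Finset.sum_filter]
    rw [h2]
    have h3 : C₀ ≤ C := le_abs_self _
    linarith
  refine ⟨Real.log (Real.log 3) / 2 + C / Real.log 2 + 1, fun N hN => ?_⟩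
  have hab := abel_loglog a ha0 ha1 C hC0 hT N hN
  have hpp := sum_inv_properPrimePow_le N
  have hle : ∑ n ∈ Finset.Ioc 0 N, a n / Real.log n
      ≤ ∑ p ∈ (Finset.Ioc 0 N).filter (fun p => p.Prime ∧ p % 4 = 1), 1 / (p : ℝ)
        + ∑ d ∈ (Finset.Ioc 0 N).filter (fun d => IsPrimePow d ∧ ¬ d.Prime), 1 / (d : ℝ) := by
    rw [Finset.sum_filter, Finset.sum_filter, ← Finset.sum_add_distrib]
    apply Finset.sum_le_sum
    intro n hn
    have hn0 : 0 < n := (Finset.mem_Ioc.1 hn).1
    have hnr : (0 : ℝ) < n := by exact_mod_cast hn0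
    have hinv : (0 : ℝ) ≤ 1 / (n : ℝ) := by positivity
    simp only [ha]
    by_cases h4 : n % 4 = 1
    · rw [if_pos h4]
      by_cases hp : n.Prime
      · have hn2 : 2 ≤ n := hp.two_le
        have hlog : 0 < Real.log n := Real.log_pos (by exact_mod_cast hn2)
        rw [if_pos ⟨hp, h4⟩, ArithmeticFunction.vonMangoldt_apply_prime hp]
        have hnp : ¬ (IsPrimePow n ∧ ¬ n.Prime) := fun h => h.2 hp
        rw [if_neg hnp, add_zero]
        apply le_of_eq
        field_simp
      · have hnp : ¬ (n.Prime ∧ n % 4 = 1) := fun h => hp h.1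
        rw [if_neg hnp, zero_add]
        by_cases hpp : IsPrimePow n
        · have hn2 : 2 ≤ n := hpp.two_le
          have hlog : 0 < Real.log n := Real.log_pos (by exact_mod_cast hn2)
          rw [if_pos ⟨hpp, hp⟩]
          have hle : ArithmeticFunction.vonMangoldt n ≤ Real.log n :=
            ArithmeticFunction.vonMangoldt_le_log
          rw [div_div, div_le_div_iff₀ (by positivity) hnr]
          nlinarith [ArithmeticFunction.vonMangoldt_nonneg (n := n)]
        · have hz : ArithmeticFunction.vonMangoldt n = 0 :=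
            ArithmeticFunction.vonMangoldt_eq_zero_iff.2 hpp
          have hnpp : ¬ (IsPrimePow n ∧ ¬ n.Prime) := fun h => hpp h.1
          rw [if_neg hnpp, hz]
          simp
    · rw [if_neg h4]
      have hnp : ¬ (n.Prime ∧ n % 4 = 1) := fun h => h4 h.2
      rw [if_neg hnp, zero_add, zero_div]
      split_ifs
      · exact hinv
      · exact le_refl _
  linarith

theorem primes_one_mod_four_supply : ∃ A y₀ : ℕ, 2 ≤ A ∧ ∀ y : ℕ, y₀ ≤ y →
    3 * (y : ℝ) / Real.log y
      ≤ (((Finset.Ioc y (A * y)).filter (fun p => p.Prime ∧ p % 4 = 1)).card : ℝ) :=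
  primes_one_mod_four_supply_of mertens_one_mod_four

end Vale.Agent.Lib.P015
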