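import Mathlib
import Vale.Agent.Lib.P015.Log.Defs

/-!
# P015: an abstract covering lemma by averaging

Given finitely many moduli `p ∈ S`, a finite set `X` of points, and for each modulus a
covering relation `cov p x ρ` (the residue class `ρ` modulo `p` covers the point `x`), one
can choose the residues `r p < p` one modulus at a time so that the number of points left
uncovered is at most the expected number for independent uniformly random residues.
-/

namespace Vale.Agent.Lib.P015

/-- Weighted form of the covering lemma, proved by induction on the set of moduli. -/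
theorem exists_cover_weighted {α : Type*} [DecidableEq α] (X : Finset α)
    (cov : ℕ → α → ℕ → Prop) [∀ p x ρ, Decidable (cov p x ρ)] (g : ℕ → α → ℝ)
    (S : Finset ℕ) :
    (∀ p ∈ S, 0 < p) → (∀ p ∈ S, ∀ x ∈ X, 0 ≤ g p x) →
    (∀ p ∈ S, ∀ x ∈ X,
      g p x ≤ (((Finset.range p).filter (fun ρ => cov p x ρ)).card : ℝ)) →
    ∀ w : α → ℝ, (∀ x ∈ X, 0 ≤ w x) →
    ∃ r : ℕ → ℕ, (∀ p ∈ S, r p < p) ∧
      ∑ x ∈ X.filter (fun x => ∀ p ∈ S, ¬ cov p x (r p)), w x
        ≤ ∑ x ∈ X, w x * ∏ p ∈ S, (1 - g p x / (p : ℝ)) := by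
  classical
  induction S using Finset.induction_on with
  | empty =>
    intro _ _ _ w hw
    refine ⟨fun _ => 0, by simp, ?_⟩
    simp
  | insert q S hq ih =>
    intro hS hg0 hg w hw
    have hqpos : 0 < q := hS q (Finset.mem_insert_self q S)
    have hqR : (0 : ℝ) < (q : ℝ) := by exact_mod_cast hqpos
    have hgq : ∀ x ∈ X, g q x ≤ (q : ℝ) := by
      intro x hx
      refine (hg q (Finset.mem_insert_self q S) x hx).trans ?_
      have h1 : ((Finset.range q).filter (fun ρ => cov q x ρ)).card ≤ q := by
        simpa using Finset.card_filter_le (Finset.range q) (fun ρ => cov q x ρ)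
      exact_mod_cast h1
    have hw'0 : ∀ x ∈ X, 0 ≤ w x * (1 - g q x / (q : ℝ)) := by
      intro x hx
      refine mul_nonneg (hw x hx) ?_
      have h1 := hgq x hx
      rw [sub_nonneg, div_le_one hqR]
      exact h1
    obtain ⟨r0, hr0, hsum⟩ := ih (fun p hp => hS p (Finset.mem_insert_of_mem hp))
      (fun p hp => hg0 p (Finset.mem_insert_of_mem hp))
      (fun p hp => hg p (Finset.mem_insert_of_mem hp))
      (fun x => w x * (1 - g q x / (q : ℝ))) hw'0
    have havg : ∑ ρ ∈ Finset.range q,
          ∑ x ∈ (X.filter (fun x => ∀ p ∈ S, ¬ cov p x (r0 p))).filter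
            (fun x => ¬ cov q x ρ), w x
        ≤ ∑ ρ ∈ Finset.range q,
          ∑ x ∈ X.filter (fun x => ∀ p ∈ S, ¬ cov p x (r0 p)),
            w x * (1 - g q x / (q : ℝ)) := by
      have h1 : ∑ ρ ∈ Finset.range q,
            ∑ x ∈ (X.filter (fun x => ∀ p ∈ S, ¬ cov p x (r0 p))).filter
              (fun x => ¬ cov q x ρ), w x
          = ∑ x ∈ X.filter (fun x => ∀ p ∈ S, ¬ cov p x (r0 p)),
              w x * (((Finset.range q).filter (fun ρ => ¬ cov q x ρ)).card : ℝ) := by
        simp_rw [Finset.sum_filter (fun x => ¬ cov q x _)]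
        rw [Finset.sum_comm]
        refine Finset.sum_congr rfl (fun x _ => ?_)
        rw [← Finset.sum_filter, Finset.sum_const, nsmul_eq_mul, mul_comm]
      rw [h1, Finset.sum_const, Finset.card_range, nsmul_eq_mul, Finset.mul_sum]
      refine Finset.sum_le_sum (fun x hx => ?_)
      have hxX : x ∈ X := (Finset.mem_filter.mp hx).1
      have hcard : (((Finset.range q).filter (fun ρ => ¬ cov q x ρ)).card : ℝ)
          = (q : ℝ) - (((Finset.range q).filter (fun ρ => cov q x ρ)).card : ℝ) := by
        have h2 := Finset.card_filter_add_card_filter_not (s := Finset.range q)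
          (fun ρ => cov q x ρ)
        rw [Finset.card_range] at h2
        rw [eq_sub_iff_add_eq, add_comm]
        exact_mod_cast h2
      rw [hcard]
      have hgx := hg q (Finset.mem_insert_self q S) x hxX
      have hwx := hw x hxX
      have h3 : (q : ℝ) * (w x * (1 - g q x / (q : ℝ))) = w x * ((q : ℝ) - g q x) := by
        field_simp
      rw [h3]
      exact mul_le_mul_of_nonneg_left (by linarith) hwx
    obtain ⟨ρ, hρ, hρle⟩ :=
      Finset.exists_le_of_sum_le (Finset.nonempty_range_iff.mpr hqpos.ne') havg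
    refine ⟨Function.update r0 q ρ, ?_, ?_⟩
    · intro p hp
      rcases Finset.mem_insert.mp hp with rfl | hpS
      · simpa using Finset.mem_range.mp hρ
      · have hne : p ≠ q := fun h => hq (h ▸ hpS)
        rw [Function.update_of_ne hne]
        exact hr0 p hpS
    · have hset : X.filter (fun x => ∀ p ∈ insert q S, ¬ cov p x (Function.update r0 q ρ p))
          = (X.filter (fun x => ∀ p ∈ S, ¬ cov p x (r0 p))).filter
              (fun x => ¬ cov q x ρ) := by
        ext x
        simp only [Finset.mem_filter, Finset.mem_insert, forall_eq_or_imp,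
          Function.update_self]
        constructor
        · rintro ⟨hx, h1, h2⟩
          refine ⟨⟨hx, fun p hp => ?_⟩, h1⟩
          have hne : p ≠ q := fun h => hq (h ▸ hp)
          have h3 := h2 p hp
          rwa [Function.update_of_ne hne] at h3
        · rintro ⟨⟨hx, h2⟩, h1⟩
          refine ⟨hx, h1, fun p hp => ?_⟩
          have hne : p ≠ q := fun h => hq (h ▸ hp)
          rw [Function.update_of_ne hne]
          exact h2 p hp
      rw [hset]
      refine hρle.trans (hsum.trans (le_of_eq ?_))
      refine Finset.sum_congr rfl (fun x _ => ?_)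
      rw [Finset.prod_insert hq]
      ring

/-- Covering lemma by averaging: the residues `r p < p` can be chosen so that the number of
points of `X` not covered by any modulus in `S` is at most
`∑ x ∈ X, ∏ p ∈ S, (1 - g p x / p)`, where `g p x` is any lower bound for the number of
residue classes modulo `p` covering `x`. -/
theorem exists_cover {α : Type*} [DecidableEq α] (X : Finset α) (S : Finset ℕ)
    (cov : ℕ → α → ℕ → Prop) [∀ p x ρ, Decidable (cov p x ρ)] (g : ℕ → α → ℝ)
    (hS : ∀ p ∈ S, 0 < p)
    (hg0 : ∀ p ∈ S, ∀ x ∈ X, 0 ≤ g p x)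
    (hg : ∀ p ∈ S, ∀ x ∈ X,
      g p x ≤ (((Finset.range p).filter (fun ρ => cov p x ρ)).card : ℝ)) :
    ∃ r : ℕ → ℕ, (∀ p ∈ S, r p < p) ∧
      (((X.filter (fun x => ∀ p ∈ S, ¬ cov p x (r p))).card : ℝ)
        ≤ ∑ x ∈ X, ∏ p ∈ S, (1 - g p x / (p : ℝ))) := by
  obtain ⟨r, hr, h⟩ := exists_cover_weighted X cov g S hS hg0 hg (fun _ => 1)
    (fun _ _ => zero_le_one)
  refine ⟨r, hr, ?_⟩
  simpa using h

end Vale.Agent.Lib.P015
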