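import Mathlib
import Vale.Agent.Lib.P015.Log.Defs

/-!
# P015: Gaussian integer facts for split primes

Two residue classes modulo a prime `p = 1 mod 4` on which `(ρ + a)^2 + b^2` is divisible by `p`,
and reducibility of a Gaussian integer whose norm is a proper multiple of such a prime.
-/

namespace Vale.Agent.Lib.P015

private theorem mem_cover (p : ℕ) [Fact p.Prime] (a b : ℤ) (x : ZMod p)
    (hx : (x + (a : ZMod p)) ^ 2 + (b : ZMod p) ^ 2 = 0) :
    x.val ∈ (Finset.range p).filter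
      (fun ρ : ℕ => (p : ℤ) ∣ ((ρ : ℤ) + a) ^ 2 + b ^ 2) := by
  rw [Finset.mem_filter, Finset.mem_range]
  refine ⟨ZMod.val_lt x, ?_⟩
  rw [← ZMod.intCast_zmod_eq_zero_iff_dvd]
  push_cast
  rw [ZMod.natCast_zmod_val]
  exact hx

private theorem exists_sq_neg_one (p : ℕ) [Fact p.Prime] (hp4 : p % 4 = 1) :
    ∃ y : ZMod p, y ^ 2 = -1 := by
  have h : IsSquare (-1 : ZMod p) := ZMod.exists_sq_eq_neg_one_iff.2 (by omega)
  obtain ⟨y, hy⟩ := h
  exact ⟨y, by rw [hy, pow_two]⟩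

theorem two_le_card_cover (p : ℕ) (hp : p.Prime) (hp4 : p % 4 = 1) (a b : ℤ)
    (hb : ¬ (p : ℤ) ∣ b) :
    2 ≤ ((Finset.range p).filter
      (fun ρ : ℕ => (p : ℤ) ∣ ((ρ : ℤ) + a) ^ 2 + b ^ 2)).card := by
  have : Fact p.Prime := ⟨hp⟩
  obtain ⟨y, hy⟩ := exists_sq_neg_one p hp4
  have hb0 : (b : ZMod p) ≠ 0 := by
    intro h
    exact hb ((ZMod.intCast_zmod_eq_zero_iff_dvd b p).1 h)
  have hy0 : y ≠ 0 := by
    intro h
    rw [h] at hy
    have : (1 : ZMod p) = 0 := by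
      have h2 : (0 : ZMod p) ^ 2 = 0 := by ring
      rw [h2] at hy
      linear_combination hy
    exact one_ne_zero this
  have h2 : (2 : ZMod p) ≠ 0 := by
    intro h
    have h3 : ((2 : ℕ) : ZMod p) = 0 := by exact_mod_cast h
    rw [ZMod.natCast_eq_zero_iff] at h3
    have h4 : p ≤ 2 := Nat.le_of_dvd (by norm_num) h3
    have h5 : 2 ≤ p := hp.two_le
    have h6 : p = 2 := le_antisymm h4 h5
    omega
  have m1 := mem_cover p a b (y * (b : ZMod p) - (a : ZMod p)) (by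
    linear_combination ((b : ZMod p) ^ 2) * hy)
  have m2 := mem_cover p a b (-(y * (b : ZMod p)) - (a : ZMod p)) (by
    linear_combination ((b : ZMod p) ^ 2) * hy)
  have hne : (y * (b : ZMod p) - (a : ZMod p)).val ≠ (-(y * (b : ZMod p)) - (a : ZMod p)).val := by
    intro h
    have h3 := ZMod.val_injective p h
    have h4 : (2 : ZMod p) * (y * (b : ZMod p)) = 0 := by linear_combination h3
    rcases mul_eq_zero.1 h4 with h5 | h5
    · exact h2 h5
    · rcases mul_eq_zero.1 h5 with h6 | h6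
      · exact hy0 h6
      · exact hb0 h6
  exact Finset.one_lt_card.2 ⟨_, m1, _, m2, hne⟩

theorem one_le_card_cover (p : ℕ) (hp : p.Prime) (hp4 : p % 4 = 1) (a b : ℤ) :
    1 ≤ ((Finset.range p).filter
      (fun ρ : ℕ => (p : ℤ) ∣ ((ρ : ℤ) + a) ^ 2 + b ^ 2)).card := by
  have : Fact p.Prime := ⟨hp⟩
  obtain ⟨y, hy⟩ := exists_sq_neg_one p hp4
  have m1 := mem_cover p a b (y * (b : ZMod p) - (a : ZMod p)) (by
    linear_combination ((b : ZMod p) ^ 2) * hy)
  exact Finset.card_pos.2 ⟨_, m1⟩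

private theorem gauss_not_isUnit_of_norm_prime (p : ℕ) (hp : p.Prime) (w : GaussianInt)
    (hw : w.norm = (p : ℤ)) : ¬ IsUnit w := by
  intro h
  have h1 := Zsqrtd.norm_eq_one_iff.2 h
  rw [hw, Int.natAbs_natCast] at h1
  exact hp.one_lt.ne' h1

private theorem gauss_irreducible_of_norm_prime (p : ℕ) (hp : p.Prime) (w : GaussianInt)
    (hw : w.norm = (p : ℤ)) : Irreducible w := by
  rw [irreducible_iff]
  refine ⟨gauss_not_isUnit_of_norm_prime p hp w hw, ?_⟩
  intro s t hst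
  have h1 : s.norm * t.norm = (p : ℤ) := by rw [← Zsqrtd.norm_mul, ← hst, hw]
  have h2 : s.norm.natAbs * t.norm.natAbs = p := by
    rw [← Int.natAbs_mul, h1, Int.natAbs_natCast]
  have h3 : s.norm.natAbs ∣ p := ⟨_, h2.symm⟩
  rcases (Nat.dvd_prime hp).1 h3 with h4 | h4
  · exact Or.inl (Zsqrtd.norm_eq_one_iff.1 h4)
  · right
    apply Zsqrtd.norm_eq_one_iff.1
    rw [h4] at h2
    have h5 : p * t.norm.natAbs = p * 1 := by rw [h2, mul_one]
    exact Nat.eq_of_mul_eq_mul_left hp.pos h5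

private theorem norm_eq_of_dvd_irreducible (p : ℕ) (hp : p.Prime) (w z : GaussianInt)
    (hw : w.norm = (p : ℤ)) (hdvd : w ∣ z) (hz : Irreducible z) : z.norm = (p : ℤ) := by
  obtain ⟨t, ht⟩ := hdvd
  rcases hz.isUnit_or_isUnit ht with h | h
  · exact absurd h (gauss_not_isUnit_of_norm_prime p hp w hw)
  · have h1 := Zsqrtd.norm_eq_one_iff.2 h
    have h2 : t.norm = 1 := by
      have h3 := GaussianInt.norm_nonneg t
      omega
    rw [ht, Zsqrtd.norm_mul, hw, h2, mul_one]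

theorem not_irreducible_of_split_dvd_norm (p : ℕ) (hp : p.Prime) (hp4 : p % 4 = 1)
    (z : GaussianInt) (hdvd : (p : ℤ) ∣ z.norm) (hlt : (p : ℤ) < z.norm) :
    ¬ Irreducible z := by
  intro hz
  have : Fact p.Prime := ⟨hp⟩
  obtain ⟨u, v, huv⟩ := Nat.Prime.sq_add_sq (p := p) (by omega)
  set x : GaussianInt := ⟨(u : ℤ), (v : ℤ)⟩ with hx
  have hxn : x.norm = (p : ℤ) := by
    rw [Zsqrtd.norm_def]
    simp only [hx]
    have : ((u ^ 2 + v ^ 2 : ℕ) : ℤ) = (p : ℤ) := by rw [huv]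
    push_cast at this
    linarith
  have hxs : (star x).norm = (p : ℤ) := by rw [Zsqrtd.norm_conj, hxn]
  have hxp : Prime x := (gauss_irreducible_of_norm_prime p hp x hxn).prime
  have h1 : x ∣ z * star z := by
    obtain ⟨k, hk⟩ := hdvd
    refine ⟨star x * (k : GaussianInt), ?_⟩
    rw [← Zsqrtd.norm_eq_mul_conj, hk, ← mul_assoc, ← Zsqrtd.norm_eq_mul_conj, hxn]
    push_cast
    ring
  rcases hxp.dvd_or_dvd h1 with h2 | h2
  · have h3 := norm_eq_of_dvd_irreducible p hp x z hxn h2 hz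
    omega
  · have h4 : star x ∣ z := by
      obtain ⟨t, ht⟩ := h2
      refine ⟨star t, ?_⟩
      have h5 : star (star z) = star (x * t) := by rw [ht]
      rw [star_star, star_mul'] at h5
      exact h5
    have h3 := norm_eq_of_dvd_irreducible p hp (star x) z hxs h4 hz
    omega

end Vale.Agent.Lib.P015
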