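import Mathlib
import Vale.Agent.Lib.P015.Log.Defs

namespace Vale.Agent.Lib.P015

open Finset

private theorem sieveW_insert (S : Finset ℕ) (q : ℕ) (hq : q ∉ S) (n : ℕ) :
    sieveW (insert q S) n = (if q ∣ n then (1 : ℝ) else 1 - 2 / (q : ℝ)) * sieveW S n := by
  unfold sieveW
  rw [Finset.prod_insert hq]

private theorem sum_sieveW_dvd_le (S : Finset ℕ) (hS : ∀ p ∈ S, p.Prime) (K : ℕ) :
    ∀ d : ℕ, 1 ≤ d → (∀ p ∈ S, ¬ p ∣ d) →
      ∑ n ∈ (Finset.Ioc 0 K).filter (fun n => d ∣ n), sieveW S n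
        ≤ (K : ℝ) / d * ∏ p ∈ S, (1 - 2 / (p : ℝ) + 2 / (p : ℝ) ^ 2) := by
  induction S using Finset.induction_on with
  | empty =>
    intro d hd _
    have h1 : ∀ n, sieveW ∅ n = 1 := fun n => by simp [sieveW]
    simp only [h1, Finset.sum_const, nsmul_eq_mul, mul_one, Finset.prod_empty]
    rw [Nat.Ioc_filter_dvd_card_eq_div]
    exact Nat.cast_div_le
  | insert q S hq ih =>
    intro d hd hdS
    have hqp : q.Prime := hS q (Finset.mem_insert_self q S)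
    have hS' : ∀ p ∈ S, p.Prime := fun p hp => hS p (Finset.mem_insert_of_mem hp)
    have hqd : ¬ q ∣ d := hdS q (Finset.mem_insert_self q S)
    have hdS' : ∀ p ∈ S, ¬ p ∣ d := fun p hp => hdS p (Finset.mem_insert_of_mem hp)
    have ih1 := ih hS' d hd hdS'
    have hdq : ∀ p ∈ S, ¬ p ∣ d * q := by
      intro p hp hdvd
      have hpp := hS' p hp
      rcases (Nat.Prime.dvd_mul hpp).1 hdvd with h | h
      · exact hdS' p hp h
      · have : p = q := (Nat.prime_dvd_prime_iff_eq hpp hqp).1 h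
        exact hq (this ▸ hp)
    have ih2 := ih hS' (d * q) (Nat.mul_pos hd hqp.pos) hdq
    have hq2 : (2 : ℝ) ≤ q := by exact_mod_cast hqp.two_le
    have hq0 : (0 : ℝ) < q := by linarith
    have hd0 : (0 : ℝ) < d := by exact_mod_cast hd
    have hc1 : (0 : ℝ) ≤ 1 - 2 / (q : ℝ) := by
      rw [sub_nonneg, div_le_one hq0]
      exact hq2
    have hc2 : (0 : ℝ) ≤ 2 / (q : ℝ) := by positivity
    -- split the sum
    have hsplit : ∑ n ∈ (Finset.Ioc 0 K).filter (fun n => d ∣ n), sieveW (insert q S) n =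
        (1 - 2 / (q : ℝ)) * ∑ n ∈ (Finset.Ioc 0 K).filter (fun n => d ∣ n), sieveW S n +
          2 / (q : ℝ) * ∑ n ∈ (Finset.Ioc 0 K).filter (fun n => d * q ∣ n), sieveW S n := by
      have hfilt : (Finset.Ioc 0 K).filter (fun n => d * q ∣ n) =
          ((Finset.Ioc 0 K).filter (fun n => d ∣ n)).filter (fun n => q ∣ n) := by
        ext n
        simp only [Finset.mem_filter]
        constructor
        · rintro ⟨h1, h2⟩
          exact ⟨⟨h1, Dvd.dvd.trans (Dvd.intro q rfl) h2⟩, Dvd.dvd.trans (Dvd.intro_left d rfl) h2⟩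
        · rintro ⟨⟨h1, h2⟩, h3⟩
          refine ⟨h1, ?_⟩
          have hcop : Nat.Coprime d q := by
            rw [Nat.coprime_comm]
            exact (Nat.Prime.coprime_iff_not_dvd hqp).2 hqd
          exact Nat.Coprime.mul_dvd_of_dvd_of_dvd hcop h2 h3
      have hsf : ∑ n ∈ ((Finset.Ioc 0 K).filter (fun n => d ∣ n)).filter (fun n => q ∣ n),
            sieveW S n =
          ∑ n ∈ (Finset.Ioc 0 K).filter (fun n => d ∣ n), if q ∣ n then sieveW S n else 0 :=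
        Finset.sum_filter _ _
      rw [hfilt, hsf, Finset.mul_sum, Finset.mul_sum, ← Finset.sum_add_distrib]
      apply Finset.sum_congr rfl
      intro n _
      rw [sieveW_insert S q hq n]
      split_ifs <;> ring
    rw [hsplit, Finset.prod_insert hq]
    have e1 := mul_le_mul_of_nonneg_left ih1 hc1
    have e2 := mul_le_mul_of_nonneg_left ih2 hc2
    have hcast : ((d * q : ℕ) : ℝ) = (d : ℝ) * q := by push_cast; ring
    rw [hcast] at e2
    have hfin : (1 - 2 / (q : ℝ)) * ((K : ℝ) / d * ∏ p ∈ S, (1 - 2 / (p : ℝ) + 2 / (p : ℝ) ^ 2)) +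
        2 / (q : ℝ) * ((K : ℝ) / ((d : ℝ) * q) * ∏ p ∈ S, (1 - 2 / (p : ℝ) + 2 / (p : ℝ) ^ 2)) =
        (K : ℝ) / d * ((1 - 2 / (q : ℝ) + 2 / (q : ℝ) ^ 2) *
          ∏ p ∈ S, (1 - 2 / (p : ℝ) + 2 / (p : ℝ) ^ 2)) := by
      field_simp
    linarith

theorem sum_sieveW_le (S : Finset ℕ) (hS : ∀ p ∈ S, p.Prime) (K : ℕ) :
    ∑ n ∈ Finset.Ioc 0 K, sieveW S n
      ≤ (K : ℝ) * ∏ p ∈ S, (1 - 2 / (p : ℝ) + 2 / (p : ℝ) ^ 2) := by
  have h := sum_sieveW_dvd_le S hS K 1 le_rfl (fun p hp h1 => by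
    have := (hS p hp).two_le
    have := Nat.le_of_dvd Nat.one_pos h1
    omega)
  have hfilt : (Finset.Ioc 0 K).filter (fun n => 1 ∣ n) = Finset.Ioc 0 K := by
    apply Finset.filter_true_of_mem
    intro n _
    exact one_dvd n
  rw [hfilt] at h
  simpa using h

private theorem sum_telescope (N : ℕ) (hN : 1 ≤ N) :
    ∑ n ∈ Finset.Ioc 1 N, (1 / ((n : ℝ) - 1) - 1 / (n : ℝ)) = 1 - 1 / (N : ℝ) := by
  induction N with
  | zero => omega
  | succ N ih =>
    rcases Nat.eq_zero_or_pos N with h0 | hpos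
    · subst h0
      simp
    · rw [Finset.sum_Ioc_succ_top hpos, ih hpos]
      have hN0 : (N : ℝ) ≠ 0 := by exact_mod_cast hpos.ne'
      have hc : (((N + 1 : ℕ) : ℝ)) - 1 = (N : ℝ) := by push_cast; ring
      rw [hc]
      ring

private theorem sum_inv_sq_le_one (S : Finset ℕ) (hS : ∀ p ∈ S, 2 ≤ p) :
    ∑ p ∈ S, 1 / (p : ℝ) ^ 2 ≤ 1 := by
  have h1 : ∑ p ∈ S, 1 / (p : ℝ) ^ 2 ≤ ∑ p ∈ S, (1 / ((p : ℝ) - 1) - 1 / (p : ℝ)) := by
    apply Finset.sum_le_sum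
    intro p hp
    have hp2 : (2 : ℝ) ≤ p := by exact_mod_cast hS p hp
    have hp0 : (0 : ℝ) < p := by linarith
    have hp1 : (0 : ℝ) < (p : ℝ) - 1 := by linarith
    rw [div_sub_div _ _ hp1.ne' hp0.ne', div_le_div_iff₀ (by positivity) (mul_pos hp1 hp0)]
    nlinarith
  set N := S.sup id + 1 with hN
  have hsub : S ⊆ Finset.Ioc 1 N := by
    intro p hp
    rw [Finset.mem_Ioc]
    have h2 := hS p hp
    have h3 : p ≤ S.sup id := Finset.le_sup (f := id) hp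
    constructor <;> omega
  have h2 : ∑ p ∈ S, (1 / ((p : ℝ) - 1) - 1 / (p : ℝ)) ≤
      ∑ n ∈ Finset.Ioc 1 N, (1 / ((n : ℝ) - 1) - 1 / (n : ℝ)) := by
    apply Finset.sum_le_sum_of_subset_of_nonneg hsub
    intro n hn _
    rw [Finset.mem_Ioc] at hn
    have hn2 : (2 : ℝ) ≤ n := by exact_mod_cast hn.1
    have hn0 : (0 : ℝ) < n := by linarith
    have hn1 : (0 : ℝ) < (n : ℝ) - 1 := by linarith
    rw [sub_nonneg]
    exact one_div_le_one_div_of_le hn1 (by linarith)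
  have hN1 : 1 ≤ N := by omega
  rw [sum_telescope N hN1] at h2
  have hpos : (0 : ℝ) ≤ 1 / (N : ℝ) := by positivity
  linarith

theorem prod_sieve_factor_le (S : Finset ℕ) (hS : ∀ p ∈ S, 2 ≤ p) :
    ∏ p ∈ S, (1 - 2 / (p : ℝ) + 2 / (p : ℝ) ^ 2)
      ≤ Real.exp (2 - 2 * ∑ p ∈ S, 1 / (p : ℝ)) := by
  have h1 : ∏ p ∈ S, (1 - 2 / (p : ℝ) + 2 / (p : ℝ) ^ 2) ≤
      ∏ p ∈ S, Real.exp (-2 / (p : ℝ) + 2 / (p : ℝ) ^ 2) := by
    apply Finset.prod_le_prod
    · intro p hp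
      have hp2 : (2 : ℝ) ≤ p := by exact_mod_cast hS p hp
      have hp0 : (0 : ℝ) < p := by linarith
      have e : 1 - 2 / (p : ℝ) + 2 / (p : ℝ) ^ 2 = (((p : ℝ) - 1) ^ 2 + 1) / (p : ℝ) ^ 2 := by
        field_simp
        ring
      rw [e]
      positivity
    · intro p _
      have h := Real.add_one_le_exp (-2 / (p : ℝ) + 2 / (p : ℝ) ^ 2)
      have e : 1 - 2 / (p : ℝ) + 2 / (p : ℝ) ^ 2 = -2 / (p : ℝ) + 2 / (p : ℝ) ^ 2 + 1 := by ring
      rw [e]
      exact h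
  refine le_trans h1 ?_
  rw [← Real.exp_sum, Real.exp_le_exp, Finset.sum_add_distrib]
  have h2 := sum_inv_sq_le_one S hS
  have e1 : ∑ p ∈ S, -2 / (p : ℝ) = -2 * ∑ p ∈ S, 1 / (p : ℝ) := by
    rw [Finset.mul_sum]
    apply Finset.sum_congr rfl
    intro p _
    ring
  have e2 : ∑ p ∈ S, 2 / (p : ℝ) ^ 2 = 2 * ∑ p ∈ S, 1 / (p : ℝ) ^ 2 := by
    rw [Finset.mul_sum]
    apply Finset.sum_congr rfl
    intro p _
    ring
  rw [e1, e2]
  linarith

end Vale.Agent.Lib.P015
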