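import Mathlib
import Vale.Agent.Lib.P015.Wall
import Vale.Agent.Lib.P015.Log.Defs
import Vale.Agent.Lib.P015.Log.Cover
import Vale.Agent.Lib.P015.Log.SieveSum
import Vale.Agent.Lib.P015.Log.Gauss

/-!
# P015: a sieve wall of reducible Gaussian integers with a logarithmically small modulus
-/

namespace Vale.Agent.Lib.P015

/-- The box of pairs `(a, b)` with `2 ≤ a ≤ m + 2` and `0 ≤ b ≤ K`. -/
def wallBox (m K : ℕ) : Finset (ℕ × ℕ) := Finset.Icc 2 (m + 2) ×ˢ Finset.range (K + 1)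

theorem sum_range_sieveW_le (S : Finset ℕ) (hS : ∀ p ∈ S, p.Prime) (K : ℕ) :
    ∑ n ∈ Finset.range (K + 1), sieveW S n
      ≤ 1 + (K : ℝ) * ∏ p ∈ S, (1 - 2 / (p : ℝ) + 2 / (p : ℝ) ^ 2) := by
  have h1 : Finset.range (K + 1) = insert 0 (Finset.Ioc 0 K) := by
    ext n
    simp only [Finset.mem_range, Finset.mem_insert, Finset.mem_Ioc]
    omega
  have h0 : sieveW S 0 = 1 := by
    unfold sieveW
    apply Finset.prod_eq_one
    intro p _
    simp
  rw [h1, Finset.sum_insert (by simp), h0]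
  have := sum_sieveW_le S hS K
  linarith

/-- Residues modulo the primes of `S` can be chosen so that the number of points of the box
left uncovered is at most `(m + 1) (1 + K ∏ (1 - 2 / p + 2 / p ^ 2))`. -/
theorem cover_bound (S : Finset ℕ) (hS : ∀ p ∈ S, p.Prime ∧ p % 4 = 1) (m K : ℕ) :
    ∃ r : ℕ → ℕ,
      ((((wallBox m K).filter (fun x : ℕ × ℕ =>
          ∀ p ∈ S, ¬ (p : ℤ) ∣ ((r p : ℤ) + (x.1 : ℤ)) ^ 2 + (x.2 : ℤ) ^ 2)).card : ℝ)
        ≤ ((m : ℝ) + 1) * (1 + (K : ℝ) * ∏ p ∈ S, (1 - 2 / (p : ℝ) + 2 / (p : ℝ) ^ 2))) := by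
  classical
  obtain ⟨r, -, hr⟩ := exists_cover (wallBox m K) S
    (fun p x ρ => (p : ℤ) ∣ ((ρ : ℤ) + (x.1 : ℤ)) ^ 2 + (x.2 : ℤ) ^ 2)
    (fun p x => if p ∣ x.2 then 0 else 2)
    (fun p hp => (hS p hp).1.pos)
    (fun p _ x _ => by
      show (0 : ℝ) ≤ if p ∣ x.2 then 0 else 2
      split_ifs <;> norm_num)
    (fun p hp x _ => by
      show (if p ∣ x.2 then (0 : ℝ) else 2) ≤ _
      split_ifs with hdvd
      · exact Nat.cast_nonneg _
      · have h2 := two_le_card_cover p (hS p hp).1 (hS p hp).2 (x.1 : ℤ) (x.2 : ℤ)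
          (fun hcon => hdvd (Int.natCast_dvd_natCast.1 hcon))
        exact_mod_cast h2)
  refine ⟨r, hr.trans ?_⟩
  have h1 : ∀ x ∈ wallBox m K,
      ∏ p ∈ S, (1 - (if p ∣ x.2 then (0 : ℝ) else 2) / (p : ℝ)) = sieveW S x.2 := by
    intro x _
    unfold sieveW
    apply Finset.prod_congr rfl
    intro p _
    split_ifs <;> simp
  rw [Finset.sum_congr rfl h1]
  unfold wallBox
  rw [Finset.sum_product]
  simp only [Finset.sum_const, Nat.card_Icc, nsmul_eq_mul]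
  have h2 := sum_range_sieveW_le S (fun p hp => (hS p hp).1) K
  have h3 : ((m + 2 + 1 - 2 : ℕ) : ℝ) = (m : ℝ) + 1 := by
    have : m + 2 + 1 - 2 = m + 1 := by omega
    rw [this]
    push_cast
    ring
  rw [h3]
  apply mul_le_mul_of_nonneg_left h2
  positivity

/-- A wall from a covering system of residues: if every point of the box is covered by a
residue class modulo a prime of `Q` (all congruent to `1` modulo `4`), then the Chinese
remainder theorem yields a position `P` with `K ≤ P < (∏ Q) (K + 2)` at which all the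
Gaussian integers `± (P + a) + b i`, `2 ≤ a ≤ m + 2`, `|b| ≤ K`, are reducible. -/
theorem wall_of_residues (m K : ℕ) (Q : Finset ℕ) (c : ℕ → ℕ)
    (hQ : ∀ q ∈ Q, q.Prime ∧ q % 4 = 1)
    (hcov : ∀ x ∈ wallBox m K,
      ∃ q ∈ Q, (q : ℤ) ∣ ((c q : ℤ) + (x.1 : ℤ)) ^ 2 + (x.2 : ℤ) ^ 2) :
    ∃ P : ℕ, K ≤ P ∧ P < (∏ q ∈ Q, q) * (K + 2) ∧
      ∀ a b : ℤ, 2 ≤ a → a ≤ m + 2 → |b| ≤ K →
        ¬ Irreducible (⟨P + a, b⟩ : GaussianInt) ∧
        ¬ Irreducible (⟨-(P + a), b⟩ : GaussianInt) := by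
  have hs : ∀ i ∈ Q, (id i : ℕ) ≠ 0 := fun i hi => (hQ i hi).1.ne_zero
  have pp : (Q : Set ℕ).Pairwise (Function.onFun Nat.Coprime id) := by
    intro i hi j hj hij
    exact (Nat.coprime_primes (hQ i hi).1 (hQ j hj).1).2 hij
  set P₀ := Nat.chineseRemainderOfFinset c id Q hs pp with hP₀
  have hlt : (P₀ : ℕ) < ∏ i ∈ Q, id i := Nat.chineseRemainderOfFinset_lt_prod c id hs pp
  have hmod := P₀.2
  set M : ℕ := ∏ q ∈ Q, q with hM
  have hlt' : (P₀ : ℕ) < M := by simpa using hlt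
  have hMpos : 0 < M := Finset.prod_pos (fun q hq => (hQ q hq).1.pos)
  refine ⟨(P₀ : ℕ) + M * (K + 1), ?_, ?_, ?_⟩
  · nlinarith
  · nlinarith
  · intro a b ha2 ham hb
    have hbn : (b.natAbs : ℤ) = |b| := Int.natCast_natAbs b
    have hx : (a.toNat, b.natAbs) ∈ wallBox m K := by
      unfold wallBox
      rw [Finset.mem_product, Finset.mem_Icc, Finset.mem_range]
      refine ⟨⟨?_, ?_⟩, ?_⟩ <;> omega
    obtain ⟨q, hqQ, hdvd⟩ := hcov _ hx
    have hq := hQ q hqQ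
    simp only at hdvd
    rw [Int.toNat_of_nonneg (by omega), hbn, sq_abs] at hdvd
    have hqM : q ∣ M := Finset.dvd_prod_of_mem (fun q => q) hqQ
    have h1 : (q : ℤ) ∣ (c q : ℤ) - ((P₀ : ℕ) : ℤ) := by
      have := hmod q hqQ
      exact Nat.modEq_iff_dvd.1 this
    have h2 : (q : ℤ) ∣ (M : ℤ) := Int.natCast_dvd_natCast.2 hqM
    set P : ℕ := (P₀ : ℕ) + M * (K + 1) with hP
    have h3 : (q : ℤ) ∣ ((P : ℤ) + a) ^ 2 + b ^ 2 := by
      obtain ⟨k, hk⟩ := h1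
      obtain ⟨l, hl⟩ := h2
      obtain ⟨j, hj⟩ := hdvd
      refine ⟨j + (l * (K + 1) - k) * ((P : ℤ) + c q + 2 * a), ?_⟩
      have hPc : (P : ℤ) - (c q : ℤ) = (q : ℤ) * (l * (K + 1) - k) := by
        rw [hP]
        push_cast
        rw [hl] at *
        linear_combination -hk
      linear_combination hj + ((P : ℤ) + c q + 2 * a) * hPc
    have hqP : q ≤ P := by
      have h4 : q ≤ M := Nat.le_of_dvd hMpos hqM
      rw [hP]
      nlinarith
    have h4 : (q : ℤ) < ((P : ℤ) + a) ^ 2 + b ^ 2 := by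
      have h5 : (q : ℤ) ≤ (P : ℤ) := by exact_mod_cast hqP
      have h6 : (0 : ℤ) ≤ (P : ℤ) := Int.natCast_nonneg P
      nlinarith [sq_nonneg b]
    constructor
    · apply not_irreducible_of_split_dvd_norm q hq.1 hq.2
      · rw [norm_mk']
        exact h3
      · rw [norm_mk']
        exact h4
    · apply not_irreducible_of_split_dvd_norm q hq.1 hq.2
      · rw [norm_mk', neg_sq]
        exact h3
      · rw [norm_mk', neg_sq]
        exact h4

/-- If the points left uncovered by the small primes of `S` are no more numerous than the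
spare primes of `T`, each of them can be given a spare prime of its own, and a wall exists
at a position below `4 ^ (A y) (K + 2)`. -/
theorem wall_of_cover (m K y A : ℕ) (hA : 1 ≤ A) (S T : Finset ℕ) (r : ℕ → ℕ)
    (hS : ∀ p ∈ S, p.Prime ∧ p % 4 = 1 ∧ p ≤ y)
    (hT : ∀ p ∈ T, p.Prime ∧ p % 4 = 1 ∧ y < p ∧ p ≤ A * y)
    (hcard : ((wallBox m K).filter (fun x : ℕ × ℕ =>
        ∀ p ∈ S, ¬ (p : ℤ) ∣ ((r p : ℤ) + (x.1 : ℤ)) ^ 2 + (x.2 : ℤ) ^ 2)).card ≤ T.card) :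
    ∃ P : ℕ, K ≤ P ∧ P < 4 ^ (A * y) * (K + 2) ∧
      ∀ a b : ℤ, 2 ≤ a → a ≤ m + 2 → |b| ≤ K →
        ¬ Irreducible (⟨P + a, b⟩ : GaussianInt) ∧
        ¬ Irreducible (⟨-(P + a), b⟩ : GaussianInt) := by
  classical
  set U : Finset (ℕ × ℕ) := (wallBox m K).filter (fun x : ℕ × ℕ =>
        ∀ p ∈ S, ¬ (p : ℤ) ∣ ((r p : ℤ) + (x.1 : ℤ)) ^ 2 + (x.2 : ℤ) ^ 2) with hU
  obtain ⟨T', hT'sub, hT'card⟩ := Finset.exists_subset_card_eq hcard
  have e : ↥U ≃ ↥T' := Finset.equivOfCardEq hT'card.symm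
  have hres : ∀ (q : ℕ) (x : ℕ × ℕ), ∃ ρ : ℕ,
      q ∈ T → (q : ℤ) ∣ ((ρ : ℤ) + (x.1 : ℤ)) ^ 2 + (x.2 : ℤ) ^ 2 := by
    intro q x
    by_cases hq : q ∈ T
    · have h1 := one_le_card_cover q (hT q hq).1 (hT q hq).2.1 (x.1 : ℤ) (x.2 : ℤ)
      obtain ⟨ρ, hρ⟩ := Finset.card_pos.1 (lt_of_lt_of_le Nat.zero_lt_one h1)
      exact ⟨ρ, fun _ => (Finset.mem_filter.1 hρ).2⟩
    · exact ⟨0, fun h => absurd h hq⟩
  choose ρ hρ using hres
  set c : ℕ → ℕ := fun q =>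
    if q ∈ S then r q else if h : q ∈ T' then ρ q (e.symm ⟨q, h⟩).1 else 0 with hc
  have hdisj : ∀ q ∈ T', q ∉ S := by
    intro q hq hqS
    have h1 := (hT q (hT'sub hq)).2.2.1
    have h2 := (hS q hqS).2.2
    omega
  have hQ : ∀ q ∈ S ∪ T', q.Prime ∧ q % 4 = 1 := by
    intro q hq
    rcases Finset.mem_union.1 hq with h | h
    · exact ⟨(hS q h).1, (hS q h).2.1⟩
    · exact ⟨(hT q (hT'sub h)).1, (hT q (hT'sub h)).2.1⟩
  have hcov : ∀ x ∈ wallBox m K,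
      ∃ q ∈ S ∪ T', (q : ℤ) ∣ ((c q : ℤ) + (x.1 : ℤ)) ^ 2 + (x.2 : ℤ) ^ 2 := by
    intro x hx
    by_cases hex : ∃ p ∈ S, (p : ℤ) ∣ ((r p : ℤ) + (x.1 : ℤ)) ^ 2 + (x.2 : ℤ) ^ 2
    · obtain ⟨p, hp, hdvd⟩ := hex
      refine ⟨p, Finset.mem_union_left _ hp, ?_⟩
      have : c p = r p := by simp [hc, hp]
      rw [this]
      exact hdvd
    · have hxU : x ∈ U := by
        rw [hU, Finset.mem_filter]
        refine ⟨hx, fun p hp hdvd => hex ⟨p, hp, hdvd⟩⟩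
      have hq' : (e ⟨x, hxU⟩).1 ∈ T' := (e ⟨x, hxU⟩).2
      refine ⟨(e ⟨x, hxU⟩).1, Finset.mem_union_right _ hq', ?_⟩
      have hcq : c (e ⟨x, hxU⟩).1 = ρ (e ⟨x, hxU⟩).1 x := by
        simp only [hc]
        rw [if_neg (hdisj _ hq'), dif_pos hq']
        simp
      rw [hcq]
      exact hρ _ x (hT'sub hq')
  obtain ⟨P, hKP, hPlt, hwall⟩ := wall_of_residues m K (S ∪ T') c hQ hcov
  refine ⟨P, hKP, lt_of_lt_of_le hPlt ?_, hwall⟩
  apply Nat.mul_le_mul_right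
  have hsub : S ∪ T' ⊆ (Finset.range (A * y + 1)).filter Nat.Prime := by
    intro q hq
    rw [Finset.mem_filter, Finset.mem_range]
    rcases Finset.mem_union.1 hq with h | h
    · have h1 := (hS q h).2.2
      refine ⟨?_, (hS q h).1⟩
      nlinarith
    · have h1 := (hT q (hT'sub h)).2.2.2
      exact ⟨by omega, (hT q (hT'sub h)).1⟩
  have h1 : ∏ q ∈ S ∪ T', q ≤ primorial (A * y) := by
    unfold primorial
    apply Finset.prod_le_prod_of_subset_of_one_le' hsub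
    intro i hi _
    exact (Finset.mem_filter.1 hi).2.one_le
  exact h1.trans (primorial_le_four_pow _)

end Vale.Agent.Lib.P015
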