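import Mathlib
import Vale.Agent.Lib.P015.Log.Analytic
import Vale.Agent.Lib.P015.Log.Wall

/-!
# P015: walls of reducible Gaussian integers at logarithmically small positions
-/

namespace Vale.Agent.Lib.P015

/-- There is an absolute constant `C` such that for every `m ≥ 1` and every large `K` there
is a position `P ≥ K` with `log P ≤ C m K` at which all the Gaussian integers
`± (P + a) + b i` with `2 ≤ a ≤ m + 2` and `|b| ≤ K` are reducible. -/
theorem exists_wall : ∃ C : ℝ, 0 < C ∧ ∀ m : ℕ, 1 ≤ m → ∃ K₀ : ℕ, ∀ K : ℕ, K₀ ≤ K →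
    ∃ P : ℕ, K ≤ P ∧ Real.log P ≤ C * m * K ∧
      ∀ a b : ℤ, 2 ≤ a → a ≤ m + 2 → |b| ≤ K →
        ¬ Irreducible (⟨P + a, b⟩ : GaussianInt) ∧
        ¬ Irreducible (⟨-(P + a), b⟩ : GaussianInt) := by
  obtain ⟨C₁, hC₁⟩ := sum_inv_primes_one_mod_four
  obtain ⟨A, y₀, hA, hsupply⟩ := primes_one_mod_four_supply
  set C₇ : ℝ := Real.exp (2 + 2 * C₁) with hC₇
  have hC₇pos : 0 < C₇ := Real.exp_pos _
  set c₆ : ℕ := ⌈C₇⌉₊ + 1 with hc₆
  have hc₆1 : 1 ≤ c₆ := by omega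
  have hc₆C : C₇ ≤ (c₆ : ℝ) := by
    rw [hc₆]
    push_cast
    linarith [Nat.le_ceil C₇]
  have hc₆r : (1 : ℝ) ≤ (c₆ : ℝ) := by exact_mod_cast hc₆1
  have hAr : (2 : ℝ) ≤ (A : ℝ) := by exact_mod_cast hA
  refine ⟨3 * A * c₆ + 2, by positivity, fun m hm => ⟨16 * m + y₀ + 2, fun K hK => ?_⟩⟩
  have hmr : (1 : ℝ) ≤ (m : ℝ) := by exact_mod_cast hm
  have hK16 : (16 : ℝ) * m ≤ (K : ℝ) := by exact_mod_cast (by omega : 16 * m ≤ K)
  have hK2 : (2 : ℝ) ≤ (K : ℝ) := by exact_mod_cast (by omega : 2 ≤ K)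
  set y : ℕ := c₆ * m * K with hy
  have hyK : K ≤ y := by
    rw [hy]
    have : 1 ≤ c₆ * m := Nat.mul_pos hc₆1 hm
    nlinarith
  have hy2 : 2 ≤ y := by omega
  have hyy₀ : y₀ ≤ y := by omega
  have hyr : (y : ℝ) = (c₆ : ℝ) * m * K := by
    rw [hy]
    push_cast
    ring
  set S : Finset ℕ := (Finset.Ioc 0 y).filter (fun p => p.Prime ∧ p % 4 = 1) with hS
  set T : Finset ℕ := (Finset.Ioc y (A * y)).filter (fun p => p.Prime ∧ p % 4 = 1) with hT
  have hSp : ∀ p ∈ S, p.Prime ∧ p % 4 = 1 := fun p hp => (Finset.mem_filter.1 hp).2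
  obtain ⟨r, hr⟩ := cover_bound S hSp m K
  have hy2r : (2 : ℝ) ≤ (y : ℝ) := by exact_mod_cast hy2
  have hL : 0 < Real.log y := Real.log_pos (by linarith)
  have hL1 : Real.log y ≤ Real.log ((y : ℝ) + 1) :=
    Real.log_le_log (by linarith) (by linarith)
  have hprod : ∏ p ∈ S, (1 - 2 / (p : ℝ) + 2 / (p : ℝ) ^ 2) ≤ (c₆ : ℝ) / Real.log y := by
    have h1 := prod_sieve_factor_le S (fun p hp => (hSp p hp).1.two_le)
    have h2 := hC₁ y hy2
    have h4 : 2 - 2 * ∑ p ∈ S, 1 / (p : ℝ)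
        ≤ (2 + 2 * C₁) - Real.log (Real.log ((y : ℝ) + 1)) := by
      linarith
    have h3 : Real.exp (2 - 2 * ∑ p ∈ S, 1 / (p : ℝ)) ≤ C₇ / Real.log ((y : ℝ) + 1) := by
      calc Real.exp (2 - 2 * ∑ p ∈ S, 1 / (p : ℝ))
          ≤ Real.exp ((2 + 2 * C₁) - Real.log (Real.log ((y : ℝ) + 1))) :=
            Real.exp_le_exp.2 h4
        _ = C₇ / Real.log ((y : ℝ) + 1) := by
            rw [Real.exp_sub, Real.exp_log (lt_of_lt_of_le hL hL1)]
    have h5 : C₇ / Real.log ((y : ℝ) + 1) ≤ C₇ / Real.log y :=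
      div_le_div_of_nonneg_left hC₇pos.le hL hL1
    have h6 : C₇ / Real.log y ≤ (c₆ : ℝ) / Real.log y :=
      div_le_div_of_nonneg_right hc₆C hL.le
    linarith
  have hlog : 2 * Real.log y ≤ (c₆ : ℝ) * K := by
    have hypos : (0 : ℝ) < y := by linarith
    have h1 : Real.log y = 2 * Real.log (Real.sqrt y) := by
      rw [Real.log_sqrt hypos.le]
      ring
    have h2 : Real.log (Real.sqrt y) ≤ Real.sqrt y - 1 :=
      Real.log_le_sub_one_of_pos (Real.sqrt_pos.2 hypos)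
    have h3 : Real.sqrt y ≤ (c₆ : ℝ) * K / 4 := by
      rw [Real.sqrt_le_iff]
      refine ⟨by positivity, ?_⟩
      rw [hyr]
      have h16 : (16 : ℝ) * m ≤ c₆ * K := by nlinarith
      have hcK : (0 : ℝ) ≤ c₆ * K := by positivity
      nlinarith
    linarith
  have hUT : ((wallBox m K).filter (fun x : ℕ × ℕ =>
        ∀ p ∈ S, ¬ (p : ℤ) ∣ ((r p : ℤ) + (x.1 : ℤ)) ^ 2 + (x.2 : ℤ) ^ 2)).card ≤ T.card := by
    have h1 : ((((wallBox m K).filter (fun x : ℕ × ℕ =>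
        ∀ p ∈ S, ¬ (p : ℤ) ∣ ((r p : ℤ) + (x.1 : ℤ)) ^ 2 + (x.2 : ℤ) ^ 2)).card : ℕ) : ℝ)
        ≤ 3 * (y : ℝ) / Real.log y := by
      refine hr.trans ?_
      have hK0 : (0 : ℝ) ≤ (K : ℝ) := Nat.cast_nonneg K
      have hX : (0 : ℝ) ≤ 1 + (K : ℝ) * ((c₆ : ℝ) / Real.log y) := by positivity
      calc ((m : ℝ) + 1) * (1 + (K : ℝ) * ∏ p ∈ S, (1 - 2 / (p : ℝ) + 2 / (p : ℝ) ^ 2))
          ≤ ((m : ℝ) + 1) * (1 + (K : ℝ) * ((c₆ : ℝ) / Real.log y)) := by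
            apply mul_le_mul_of_nonneg_left _ (by positivity)
            have := mul_le_mul_of_nonneg_left hprod hK0
            linarith
        _ ≤ (2 * (m : ℝ)) * (1 + (K : ℝ) * ((c₆ : ℝ) / Real.log y)) := by
            apply mul_le_mul_of_nonneg_right _ hX
            linarith
        _ ≤ 3 * (y : ℝ) / Real.log y := by
            rw [le_div_iff₀ hL]
            have h7 : (2 * (m : ℝ)) * (1 + (K : ℝ) * ((c₆ : ℝ) / Real.log y)) * Real.log y
                = 2 * m * Real.log y + 2 * m * K * c₆ := by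
              field_simp
            have h9 : 3 * (y : ℝ) = 3 * ((c₆ : ℝ) * m * K) := by rw [hyr]
            rw [h7, h9]
            have h8 : (m : ℝ) * (2 * Real.log y) ≤ (m : ℝ) * ((c₆ : ℝ) * K) :=
              mul_le_mul_of_nonneg_left hlog (by positivity)
            nlinarith
    have h2 := hsupply y hyy₀
    exact_mod_cast h1.trans h2
  obtain ⟨P, hKP, hPlt, hwall⟩ := wall_of_cover m K y A (by omega) S T r
    (fun p hp => by
      have h1 := Finset.mem_filter.1 hp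
      exact ⟨h1.2.1, h1.2.2, (Finset.mem_Ioc.1 h1.1).2⟩)
    (fun p hp => by
      have h1 := Finset.mem_filter.1 hp
      exact ⟨h1.2.1, h1.2.2, (Finset.mem_Ioc.1 h1.1).1, (Finset.mem_Ioc.1 h1.1).2⟩)
    hUT
  refine ⟨P, hKP, ?_, hwall⟩
  have hPpos : (0 : ℝ) < (P : ℝ) := by exact_mod_cast (by omega : 0 < P)
  have h1 : (P : ℝ) ≤ (4 : ℝ) ^ (A * y) * ((K : ℝ) + 2) := by exact_mod_cast hPlt.le
  have h2 : Real.log P ≤ Real.log ((4 : ℝ) ^ (A * y) * ((K : ℝ) + 2)) :=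
    Real.log_le_log hPpos h1
  rw [Real.log_mul (by positivity) (by positivity), Real.log_pow] at h2
  have h3 : Real.log 4 ≤ 3 := by
    have := Real.log_le_sub_one_of_pos (show (0 : ℝ) < 4 by norm_num)
    linarith
  have h4 : Real.log ((K : ℝ) + 2) ≤ (K : ℝ) + 1 := by
    have := Real.log_le_sub_one_of_pos (show (0 : ℝ) < (K : ℝ) + 2 by positivity)
    linarith
  have h5 : ((A * y : ℕ) : ℝ) * Real.log 4 ≤ 3 * A * c₆ * m * K := by
    have h6 : ((A * y : ℕ) : ℝ) = (A : ℝ) * ((c₆ : ℝ) * m * K) := by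
      rw [Nat.cast_mul, hyr]
    rw [h6]
    have h7 : (0 : ℝ) ≤ (A : ℝ) * ((c₆ : ℝ) * m * K) := by positivity
    nlinarith
  have h6 : (K : ℝ) + 1 ≤ 2 * m * K := by nlinarith
  linarith

end Vale.Agent.Lib.P015
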