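import Mathlib
import Vale.Agent.Lib.P015.WideningMain
import Vale.Agent.Lib.P015.Log.ExistsWall

/-!
# P015: no walk to infinity on Gaussian primes inside a strip of logarithmic width
-/

namespace Vale.Agent.Lib.P015

/-- A wall of reducible Gaussian integers of length `m + 1` at the positions `± (P + a)`
stops every walk with steps at most `m` in the real direction, as long as the region has
half-width at most `K` along the wall. -/
theorem no_walk_of_wall (h : ℝ → ℝ) (m P K : ℕ)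
    (hwall : ∀ a b : ℤ, 2 ≤ a → a ≤ m + 2 → |b| ≤ K →
        ¬ Irreducible (⟨P + a, b⟩ : GaussianInt) ∧
        ¬ Irreducible (⟨-(P + a), b⟩ : GaussianInt))
    (key : ∀ x : ℝ, (P : ℝ) + 2 ≤ x → x ≤ (P : ℝ) + m + 2 → h x ≤ K)
    (f : ℕ → GaussianInt) (hinj : Function.Injective f) (hirr : ∀ n, Irreducible (f n))
    (hstepZ : ∀ n, |(f (n + 1)).re - (f n).re| ≤ (m : ℤ))
    (h0 : |(f 0).re| < (P : ℤ) + 2)
    (hreg : ∀ n, |((f n).im : ℝ)| ≤ h |((f n).re : ℝ)|) : False := by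
  have hbar : ∀ n, ¬ ((P : ℤ) + 2 ≤ (f n).re ∧ (f n).re ≤ (P : ℤ) + m + 2) := by
    rintro n ⟨h1, h2⟩
    have hx0 : (0 : ℝ) ≤ ((f n).re : ℝ) := by
      have : (0 : ℤ) ≤ (f n).re := by omega
      exact_mod_cast this
    have hy := hreg n
    rw [abs_of_nonneg hx0] at hy
    have hk := key ((f n).re) (by exact_mod_cast h1) (by exact_mod_cast h2)
    have hyK : |(f n).im| ≤ (K : ℤ) := by exact_mod_cast hy.trans hk
    have hw := (hwall ((f n).re - P) (f n).im (by omega) (by omega) hyK).1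
    apply hw
    have : (⟨(P : ℤ) + ((f n).re - P), (f n).im⟩ : GaussianInt) = f n := by
      apply Zsqrtd.ext <;> simp
    rw [this]
    exact hirr n
  have hbar' : ∀ n, ¬ ((P : ℤ) + 2 ≤ -(f n).re ∧ -(f n).re ≤ (P : ℤ) + m + 2) := by
    rintro n ⟨h1, h2⟩
    have hx0 : ((f n).re : ℝ) ≤ 0 := by
      have : (f n).re ≤ 0 := by omega
      exact_mod_cast this
    have hy := hreg n
    rw [abs_of_nonpos hx0] at hy
    have hk := key (-((f n).re : ℝ)) (by exact_mod_cast h1) (by exact_mod_cast h2)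
    have hyK : |(f n).im| ≤ (K : ℤ) := by exact_mod_cast hy.trans hk
    have hw := (hwall (-(f n).re - P) (f n).im (by omega) (by omega) hyK).2
    apply hw
    have : (⟨-((P : ℤ) + (-(f n).re - P)), (f n).im⟩ : GaussianInt) = f n := by
      apply Zsqrtd.ext <;> simp
    rw [this]
    exact hirr n
  have hconf : ∀ n, |(f n).re| < (P : ℤ) + 2 :=
    confined (fun n => (f n).re) m P hstepZ hbar hbar' h0
  -- the second coordinate is bounded as well
  obtain ⟨B, hB⟩ := ((Finset.range (P + 2)).image fun j : ℕ => h (j : ℝ)).exists_le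
  have hy : ∀ n, |((f n).im : ℝ)| ≤ B := by
    intro n
    have h1 := hconf n
    have h2 : h ((|(f n).re|.toNat : ℕ) : ℝ) ≤ B := by
      apply hB
      apply Finset.mem_image_of_mem
      rw [Finset.mem_range]
      have := abs_nonneg (f n).re
      omega
    have h3 : ((|(f n).re|.toNat : ℕ) : ℝ) = |((f n).re : ℝ)| := by
      have h4 : ((|(f n).re|.toNat : ℕ) : ℤ) = |(f n).re| :=
        Int.toNat_of_nonneg (abs_nonneg _)
      have h5 : (((|(f n).re|.toNat : ℕ) : ℤ) : ℝ) = ((|(f n).re| : ℤ) : ℝ) := by rw [h4]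
      push_cast at h5
      exact h5
    rw [h3] at h2
    exact (hreg n).trans h2
  set R : ℕ := P + 2 + ⌈B⌉₊ with hR
  have hfin : {z : GaussianInt | (z.re, z.im) ∈
      (Set.Icc (-(R : ℤ)) R) ×ˢ (Set.Icc (-(R : ℤ)) R)}.Finite := by
    apply Set.Finite.preimage
    · intro z _ z' _ hzz'
      simp only [Prod.mk.injEq] at hzz'
      exact Zsqrtd.ext hzz'.1 hzz'.2
    · exact (Set.finite_Icc _ _).prod (Set.finite_Icc _ _)
  have hsub : Set.range f ⊆ {z : GaussianInt | (z.re, z.im) ∈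
      (Set.Icc (-(R : ℤ)) R) ×ˢ (Set.Icc (-(R : ℤ)) R)} := by
    rintro z ⟨n, rfl⟩
    have bre : |(f n).re| ≤ (R : ℤ) := by
      have := hconf n
      rw [hR]
      push_cast
      have h3 : (0 : ℤ) ≤ (⌈B⌉₊ : ℤ) := Int.natCast_nonneg _
      omega
    have bim : |(f n).im| ≤ (R : ℤ) := by
      have h1 : |((f n).im : ℝ)| ≤ (R : ℝ) := by
        have h2 := Nat.le_ceil B
        rw [hR]
        push_cast
        have h3 : (0 : ℝ) ≤ (P : ℝ) := Nat.cast_nonneg P
        linarith [hy n]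
      exact_mod_cast h1
    simp only [Set.mem_ofPred_eq, Set.mem_prod, Set.mem_Icc]
    exact ⟨abs_le.1 bre, abs_le.1 bim⟩
  exact (Set.infinite_range_of_injective hinj) (hfin.subset hsub)

/-- Two distinct Gaussian integers are at distance at least `1`. -/
theorem one_le_dist_of_ne (z w : GaussianInt) (hne : z ≠ w) :
    1 ≤ ‖GaussianInt.toComplex z - GaussianInt.toComplex w‖ := by
  have h1 : 0 < Zsqrtd.norm (z - w) := GaussianInt.norm_pos.2 (sub_ne_zero.2 hne)
  have h2 : (1 : ℝ) ≤ ((Zsqrtd.norm (z - w) : ℤ) : ℝ) := by exact_mod_cast h1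
  rw [GaussianInt.intCast_real_norm, Complex.normSq_eq_norm_sq, map_sub] at h2
  nlinarith [norm_nonneg (GaussianInt.toComplex z - GaussianInt.toComplex w)]

/-- There is an absolute constant `c > 0` such that for every step bound `D > 0` no infinite
walk on distinct Gaussian primes with steps at most `D` stays in a region
`|Im z| ≤ h |Re z|` whose half-width satisfies `h x ≤ c log x / D` for all large `x`. -/
theorem no_walk_log_strip : ∃ c : ℝ, 0 < c ∧ ∀ D : ℝ, 0 < D → ∀ h : ℝ → ℝ,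
    (∀ᶠ x in Filter.atTop, h x ≤ c * Real.log x / D) →
    ¬ ∃ f : ℕ → GaussianInt, Function.Injective f ∧ (∀ n, Irreducible (f n)) ∧
      (∀ n, ‖GaussianInt.toComplex (f (n + 1)) - GaussianInt.toComplex (f n)‖ ≤ D) ∧
      (∀ n, |((f n).im : ℝ)| ≤ h |((f n).re : ℝ)|) := by
  obtain ⟨C, hC, hwall⟩ := exists_wall
  refine ⟨1 / (2 * (C + 1)), by positivity, ?_⟩
  rintro D hD h hh ⟨f, hinj, hirr, hstep, hreg⟩
  have hD1 : 1 ≤ D := by
    have h1 := one_le_dist_of_ne (f 1) (f 0) (fun hcon => by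
      have := hinj hcon
      omega)
    exact h1.trans (hstep 0)
  set m : ℕ := ⌈D⌉₊ with hm
  have hm1 : 1 ≤ m := Nat.ceil_pos.2 hD
  have hm2 : (m : ℝ) ≤ 2 * D := by
    have := Nat.ceil_lt_add_one hD.le
    linarith
  have hstepZ : ∀ n, |(f (n + 1)).re - (f n).re| ≤ (m : ℤ) := by
    intro n
    have h1 := Complex.abs_re_le_norm
      (GaussianInt.toComplex (f (n + 1)) - GaussianInt.toComplex (f n))
    rw [Complex.sub_re, ← GaussianInt.intCast_re, ← GaussianInt.intCast_re] at h1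
    have h2 : |(((f (n + 1)).re : ℝ) - ((f n).re : ℝ))| ≤ (m : ℝ) :=
      h1.trans ((hstep n).trans (Nat.le_ceil D))
    exact_mod_cast h2
  obtain ⟨K₀, hK₀⟩ := hwall m hm1
  obtain ⟨X, hX⟩ := Filter.eventually_atTop.1 hh
  obtain ⟨K, hK1, hK2, hK3, hK4⟩ :
      ∃ K : ℕ, K₀ ≤ K ∧ m + 3 ≤ K ∧ X ≤ K ∧ |(f 0).re| ≤ (K : ℤ) := by
    refine ⟨K₀ + m + 3 + ⌈X⌉₊ + (f 0).re.natAbs, by omega, by omega, ?_, ?_⟩
    · push_cast
      have h1 := Nat.le_ceil X
      have h2 : (0 : ℝ) ≤ (m : ℝ) := Nat.cast_nonneg m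
      have h3 : (0 : ℝ) ≤ |((f 0).re : ℝ)| := abs_nonneg _
      have h4 : (0 : ℝ) ≤ (K₀ : ℝ) := Nat.cast_nonneg K₀
      linarith
    · push_cast
      have h2 : (0 : ℤ) ≤ (m : ℤ) := Int.natCast_nonneg m
      have h3 : (0 : ℤ) ≤ (⌈X⌉₊ : ℤ) := Int.natCast_nonneg _
      have h4 : (0 : ℤ) ≤ (K₀ : ℤ) := Int.natCast_nonneg K₀
      linarith
  obtain ⟨P, hKP, hlogP, hw⟩ := hK₀ K hK1
  have key : ∀ x : ℝ, (P : ℝ) + 2 ≤ x → x ≤ (P : ℝ) + m + 2 → h x ≤ K := by
    intro x hx1 hx2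
    have hKPr : (K : ℝ) ≤ P := by exact_mod_cast hKP
    have hmK : (m : ℝ) + 3 ≤ K := by exact_mod_cast hK2
    have hm1r : (1 : ℝ) ≤ (m : ℝ) := by exact_mod_cast hm1
    have hxX : X ≤ x := by linarith
    have h1 := hX x hxX
    have hPpos : (0 : ℝ) < P := by linarith
    have hx2P : x ≤ 2 * P := by linarith
    have hlogx : Real.log x ≤ 1 + C * m * K := by
      have h2 : Real.log x ≤ Real.log (2 * P) := Real.log_le_log (by linarith) hx2P
      rw [Real.log_mul (by norm_num) hPpos.ne'] at h2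
      have h3 : Real.log 2 ≤ 1 := by
        have := Real.log_le_sub_one_of_pos (show (0 : ℝ) < 2 by norm_num)
        linarith
      linarith
    have h4 : Real.log x ≤ 2 * (C + 1) * ((K : ℝ) * D) := by
      have h5 : (1 : ℝ) ≤ m * K := by nlinarith
      have h6 : (m : ℝ) * K ≤ 2 * D * K :=
        mul_le_mul_of_nonneg_right hm2 (by linarith)
      have h7 : 1 + C * m * K ≤ (C + 1) * ((m : ℝ) * K) := by nlinarith
      have h8 : (C + 1) * ((m : ℝ) * K) ≤ (C + 1) * (2 * D * K) :=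
        mul_le_mul_of_nonneg_left h6 (by linarith)
      nlinarith
    have h9 : 1 / (2 * (C + 1)) * Real.log x / D ≤ K := by
      rw [div_le_iff₀ hD, one_div, inv_mul_le_iff₀ (by positivity)]
      exact h4
    exact h1.trans h9
  have h0 : |(f 0).re| < (P : ℤ) + 2 := by
    have : (K : ℤ) ≤ P := by exact_mod_cast hKP
    omega
  exact no_walk_of_wall h m P K hw key f hinj hirr hstepZ h0 hreg

end Vale.Agent.Lib.P015
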