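import Mathlib
import Vale.Agent.Lib.P015.Log.Main

/-!
# P015: the log-strip theorem around every line with a Gaussian integer direction

From a sieve wall hypothesis: no bounded-step walk on Gaussian primes stays within distance
`c log |z| / D` of the line `z₀ + t v`, where `v` is a nonzero Gaussian integer, `z₀` is an
arbitrary complex number and `c` depends only on `v`.  The proof follows `no_walk_log_strip`,
carried out in the coordinates of `conj v * z`; it is the proof of `Line.lean` with a complex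
base point.
-/

namespace Vale.Agent.Lib.P015

private theorem norm_sq_toComplex_gen (z : GaussianInt) :
    ‖GaussianInt.toComplex z‖ ^ 2 = (z.re : ℝ) ^ 2 + (z.im : ℝ) ^ 2 := by
  rw [Complex.sq_norm, Complex.normSq_apply, ← GaussianInt.intCast_re, ← GaussianInt.intCast_im]
  ring

private theorem coord_sq_gen (v z : GaussianInt) :
    ((v.re * z.re + v.im * z.im : ℤ) : ℝ) ^ 2 + ((v.re * z.im - v.im * z.re : ℤ) : ℝ) ^ 2
      = ‖GaussianInt.toComplex v‖ ^ 2 * ‖GaussianInt.toComplex z‖ ^ 2 := by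
  rw [norm_sq_toComplex_gen, norm_sq_toComplex_gen]
  push_cast
  ring

private theorem coord_sq_int_gen (v z : GaussianInt) :
    (v.re * z.re + v.im * z.im) ^ 2 + (v.re * z.im - v.im * z.re) ^ 2
      = (v.re ^ 2 + v.im ^ 2) * z.norm := by
  rw [Zsqrtd.norm_def]
  ring

private theorem step_bound_gen (v z z' : GaussianInt) (D : ℝ)
    (hstep : ‖GaussianInt.toComplex z' - GaussianInt.toComplex z‖ ≤ D) :
    |((v.re * z'.re + v.im * z'.im : ℤ) : ℝ) - ((v.re * z.re + v.im * z.im : ℤ) : ℝ)|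
      ≤ ‖GaussianInt.toComplex v‖ * D := by
  have hD0 : 0 ≤ D := (norm_nonneg _).trans hstep
  have h1 : ‖GaussianInt.toComplex z' - GaussianInt.toComplex z‖ ^ 2
      = ((z'.re : ℝ) - z.re) ^ 2 + ((z'.im : ℝ) - z.im) ^ 2 := by
    simp only [Complex.sq_norm, Complex.normSq_apply, Complex.sub_re, Complex.sub_im,
      ← GaussianInt.intCast_re, ← GaussianInt.intCast_im]
    ring
  have h2 := norm_sq_toComplex_gen v
  have h3 : ‖GaussianInt.toComplex z' - GaussianInt.toComplex z‖ ^ 2 ≤ D ^ 2 :=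
    pow_le_pow_left₀ (norm_nonneg _) hstep 2
  rw [h1] at h3
  apply abs_le_of_sq_le_sq _ (mul_nonneg (norm_nonneg _) hD0)
  rw [mul_pow, h2]
  push_cast
  have hcs : ((v.re : ℝ) * ((z'.re : ℝ) - z.re) + (v.im : ℝ) * ((z'.im : ℝ) - z.im)) ^ 2
      ≤ ((v.re : ℝ) ^ 2 + (v.im : ℝ) ^ 2) * (((z'.re : ℝ) - z.re) ^ 2 + ((z'.im : ℝ) - z.im) ^ 2) := by
    nlinarith [sq_nonneg ((v.re : ℝ) * ((z'.im : ℝ) - z.im) - (v.im : ℝ) * ((z'.re : ℝ) - z.re))]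
  have h4 : ((v.re : ℝ) ^ 2 + (v.im : ℝ) ^ 2) * (((z'.re : ℝ) - z.re) ^ 2 + ((z'.im : ℝ) - z.im) ^ 2)
      ≤ ((v.re : ℝ) ^ 2 + (v.im : ℝ) ^ 2) * D ^ 2 :=
    mul_le_mul_of_nonneg_left h3 (by positivity)
  have he : (v.re : ℝ) * z'.re + (v.im : ℝ) * z'.im - ((v.re : ℝ) * z.re + (v.im : ℝ) * z.im)
      = (v.re : ℝ) * ((z'.re : ℝ) - z.re) + (v.im : ℝ) * ((z'.im : ℝ) - z.im) := by ring
  rw [he]
  exact hcs.trans h4

private theorem dist_line_bound_gen (v : GaussianInt) (z₀ : ℂ) (z : GaussianInt) (t H : ℝ)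
    (hline : ‖GaussianInt.toComplex z - (z₀ + (t : ℂ) * GaussianInt.toComplex v)‖ ≤ H) :
    |((v.re * z.im - v.im * z.re : ℤ) : ℝ) - ((v.re : ℝ) * z₀.im - (v.im : ℝ) * z₀.re)|
      ≤ ‖GaussianInt.toComplex v‖ * H := by
  have hH0 : 0 ≤ H := (norm_nonneg _).trans hline
  have h1 : ‖GaussianInt.toComplex z - (z₀ + (t : ℂ) * GaussianInt.toComplex v)‖ ^ 2
      = ((z.re : ℝ) - (z₀.re + t * v.re)) ^ 2 + ((z.im : ℝ) - (z₀.im + t * v.im)) ^ 2 := by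
    simp only [Complex.sq_norm, Complex.normSq_apply, Complex.sub_re, Complex.sub_im,
      Complex.add_re, Complex.add_im, Complex.re_ofReal_mul, Complex.im_ofReal_mul,
      ← GaussianInt.intCast_re, ← GaussianInt.intCast_im]
    ring
  have h2 := norm_sq_toComplex_gen v
  have h3 : ‖GaussianInt.toComplex z - (z₀ + (t : ℂ) * GaussianInt.toComplex v)‖ ^ 2
      ≤ H ^ 2 :=
    pow_le_pow_left₀ (norm_nonneg _) hline 2
  rw [h1] at h3
  apply abs_le_of_sq_le_sq _ (mul_nonneg (norm_nonneg _) hH0)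
  rw [mul_pow, h2]
  push_cast
  have hcs : ((v.re : ℝ) * ((z.im : ℝ) - (z₀.im + t * v.im))
        - (v.im : ℝ) * ((z.re : ℝ) - (z₀.re + t * v.re))) ^ 2
      ≤ ((v.re : ℝ) ^ 2 + (v.im : ℝ) ^ 2)
        * (((z.re : ℝ) - (z₀.re + t * v.re)) ^ 2 + ((z.im : ℝ) - (z₀.im + t * v.im)) ^ 2) := by
    nlinarith [sq_nonneg ((v.re : ℝ) * ((z.re : ℝ) - (z₀.re + t * v.re))
      + (v.im : ℝ) * ((z.im : ℝ) - (z₀.im + t * v.im)))]
  have h4 : ((v.re : ℝ) ^ 2 + (v.im : ℝ) ^ 2)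
        * (((z.re : ℝ) - (z₀.re + t * v.re)) ^ 2 + ((z.im : ℝ) - (z₀.im + t * v.im)) ^ 2)
      ≤ ((v.re : ℝ) ^ 2 + (v.im : ℝ) ^ 2) * H ^ 2 :=
    mul_le_mul_of_nonneg_left h3 (by positivity)
  have he : (v.re : ℝ) * z.im - (v.im : ℝ) * z.re - ((v.re : ℝ) * z₀.im - (v.im : ℝ) * z₀.re)
      = (v.re : ℝ) * ((z.im : ℝ) - (z₀.im + t * v.im))
        - (v.im : ℝ) * ((z.re : ℝ) - (z₀.re + t * v.re)) := by ring
  rw [he]
  exact hcs.trans h4

private theorem width_control_gen (nv C c D m K P Y t0 ρ hv X : ℝ)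
    (hnv : 1 ≤ nv) (hC : 0 < C) (hc : c = 1 / (8 * nv ^ 2 * (C + 1))) (hD : 1 ≤ D)
    (hm1 : 1 ≤ m) (hm2 : m ≤ 2 * nv * D) (hmK : m + 3 ≤ K) (hKP : K ≤ P)
    (ht0 : 4 * |t0| ≤ K) (hlogP : Real.log P ≤ C * m * K)
    (hρ1 : 1 ≤ ρ) (hhv : hv ≤ c * Real.log ρ / D)
    (hY0 : 0 ≤ Y) (hY : Y ≤ |t0| + nv * hv) (hX : X ≤ P + m + 2) (hρX : ρ ≤ X + Y) :
    Y ≤ K := by
  have hP1 : 1 ≤ P := by linarith
  have hPpos : 0 < P := by linarith
  have hρ2 : ρ ≤ 2 * P + Y := by linarith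
  have hlog1 : Real.log ρ ≤ Real.log (2 * P + Y) := Real.log_le_log (by linarith) hρ2
  have hlog2 : Real.log (2 * P + Y) ≤ Real.log (2 * P) + Y / (2 * P) := by
    have h2P : (0 : ℝ) < 2 * P := by linarith
    have he : 2 * P + Y = (2 * P) * (1 + Y / (2 * P)) := by field_simp
    have hpos : 0 < 1 + Y / (2 * P) := by positivity
    rw [he, Real.log_mul h2P.ne' hpos.ne']
    have := Real.log_le_sub_one_of_pos hpos
    linarith
  have hlog3 : Real.log (2 * P) ≤ 1 + C * m * K := by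
    rw [Real.log_mul (by norm_num) hPpos.ne']
    have h3 : Real.log 2 ≤ 1 := by
      have := Real.log_le_sub_one_of_pos (show (0 : ℝ) < 2 by norm_num)
      linarith
    linarith
  have hK0 : 0 ≤ K := by linarith
  have hmK1 : 1 ≤ m * K := by nlinarith
  have hlog4 : 1 + C * m * K ≤ (C + 1) * (2 * nv * D * K) := by
    have h6 : m * K ≤ 2 * nv * D * K := mul_le_mul_of_nonneg_right hm2 hK0
    have h7 : 1 + C * m * K ≤ (C + 1) * (m * K) := by nlinarith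
    have h8 : (C + 1) * (m * K) ≤ (C + 1) * (2 * nv * D * K) :=
      mul_le_mul_of_nonneg_left h6 (by linarith)
    linarith
  have hL : Real.log ρ ≤ (C + 1) * (2 * nv * D * K) + Y / (2 * P) := by linarith
  have hnv0 : 0 < nv := by linarith
  have hDpos : 0 < D := by linarith
  have hc0 : 0 ≤ c := by
    rw [hc]
    positivity
  have h1 : nv * hv ≤ nv * (c * ((C + 1) * (2 * nv * D * K) + Y / (2 * P)) / D) := by
    apply mul_le_mul_of_nonneg_left _ hnv0.le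
    refine hhv.trans ?_
    apply div_le_div_of_nonneg_right _ hDpos.le
    exact mul_le_mul_of_nonneg_left hL hc0
  have h2 : nv * (c * ((C + 1) * (2 * nv * D * K) + Y / (2 * P)) / D)
      = K / 4 + Y / (16 * nv * (C + 1) * P * D) := by
    rw [hc]
    field_simp
    ring
  have h3 : Y / (16 * nv * (C + 1) * P * D) ≤ Y / 2 := by
    apply div_le_div_of_nonneg_left hY0 (by norm_num)
    have a1 : 1 ≤ nv * (C + 1) := by nlinarith
    have a2 : 1 ≤ nv * (C + 1) * P := by nlinarith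
    have a3 : 1 ≤ nv * (C + 1) * P * D := by nlinarith
    linarith
  have h4 := abs_nonneg t0
  linarith

/-- From a sieve wall hypothesis: for every nonzero Gaussian integer `v` there is `c > 0`
such that for every complex `z₀` no bounded-step walk on distinct Gaussian primes stays
within distance `c log |z| / D` of the line `z₀ + t v`. -/
theorem no_walk_log_line_gen_of
    (hwall : ∀ B : ℕ, ∃ C : ℝ, 0 < C ∧ ∀ m : ℕ, 1 ≤ m → ∃ K₀ : ℕ, ∀ K : ℕ, K₀ ≤ K →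
      ∃ P : ℕ, K ≤ P ∧ Real.log P ≤ C * m * K ∧
        ∀ a b : ℤ, 2 ≤ a → a ≤ m + 2 → |b| ≤ K →
          ∃ q : ℕ, q.Prime ∧ q % 4 = 1 ∧ B < q ∧ q ≤ P ∧
            (q : ℤ) ∣ ((P : ℤ) + a) ^ 2 + b ^ 2)
    (v : GaussianInt) (hv : v ≠ 0) :
    ∃ c : ℝ, 0 < c ∧ ∀ z₀ : ℂ, ∀ D : ℝ, 0 < D → ∀ h : ℝ → ℝ,
      (∀ᶠ x in Filter.atTop, h x ≤ c * Real.log x / D) →
      ¬ ∃ f : ℕ → GaussianInt, Function.Injective f ∧ (∀ n, Irreducible (f n)) ∧
        (∀ n, ‖GaussianInt.toComplex (f (n + 1)) - GaussianInt.toComplex (f n)‖ ≤ D) ∧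
        (∀ n, ∃ t : ℝ, ‖GaussianInt.toComplex (f n) -
            (z₀ + (t : ℂ) * GaussianInt.toComplex v)‖
              ≤ h ‖GaussianInt.toComplex (f n)‖) := by
  have hN1 : 1 ≤ v.re ^ 2 + v.im ^ 2 := by
    have hne : v.re ≠ 0 ∨ v.im ≠ 0 := by
      by_contra hcon
      push Not at hcon
      exact hv (Zsqrtd.ext hcon.1 hcon.2)
    rcases hne with h | h
    · have h1 : 0 < v.re ^ 2 := by positivity
      have h2 : 0 ≤ v.im ^ 2 := by positivity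
      linarith
    · have h1 : 0 < v.im ^ 2 := by positivity
      have h2 : 0 ≤ v.re ^ 2 := by positivity
      linarith
  obtain ⟨N, hN⟩ : ∃ N : ℤ, N = v.re ^ 2 + v.im ^ 2 := ⟨_, rfl⟩
  rw [← hN] at hN1
  obtain ⟨nv, hnvdef⟩ : ∃ nv : ℝ, nv = ‖GaussianInt.toComplex v‖ := ⟨_, rfl⟩
  have hnv2 : nv ^ 2 = (N : ℝ) := by
    rw [hnvdef, norm_sq_toComplex_gen, hN]
    push_cast
    ring
  have hNr1 : (1 : ℝ) ≤ (N : ℝ) := by exact_mod_cast hN1
  have hnv0 : 0 ≤ nv := by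
    rw [hnvdef]
    exact norm_nonneg _
  have hnv1 : 1 ≤ nv := by
    by_contra hcon
    push Not at hcon
    nlinarith
  have hnvN : nv ≤ (N : ℝ) := by nlinarith
  obtain ⟨C, hC, hwallC⟩ := hwall N.toNat
  refine ⟨1 / (8 * nv ^ 2 * (C + 1)), by positivity, ?_⟩
  rintro z₀ D hD h hh ⟨f, hinj, hirr, hstep, hline⟩
  have hD1 : 1 ≤ D := by
    have h1 := one_le_dist_of_ne (f 1) (f 0) (fun hcon => by
      have := hinj hcon
      omega)
    exact h1.trans (hstep 0)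
  obtain ⟨x, hx⟩ : ∃ x : ℕ → ℤ, ∀ n, x n = v.re * (f n).re + v.im * (f n).im :=
    ⟨_, fun _ => rfl⟩
  obtain ⟨y, hy⟩ : ∃ y : ℕ → ℤ, ∀ n, y n = v.re * (f n).im - v.im * (f n).re :=
    ⟨_, fun _ => rfl⟩
  obtain ⟨t0, ht0⟩ : ∃ t0 : ℝ, t0 = (v.re : ℝ) * z₀.im - (v.im : ℝ) * z₀.re := ⟨_, rfl⟩
  obtain ⟨ρ, hρ⟩ : ∃ ρ : ℕ → ℝ, ∀ n, ρ n = ‖GaussianInt.toComplex (f n)‖ := ⟨_, fun _ => rfl⟩
  have hρ0 : ∀ n, 0 ≤ ρ n := fun n => by
    rw [hρ]
    exact norm_nonneg _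
  have hF1 : ∀ n, ((x n : ℤ) : ℝ) ^ 2 + ((y n : ℤ) : ℝ) ^ 2 = nv ^ 2 * ρ n ^ 2 := by
    intro n
    rw [hx, hy, hρ, hnvdef]
    exact coord_sq_gen v (f n)
  have hF1Z : ∀ n, x n ^ 2 + y n ^ 2 = N * (f n).norm := by
    intro n
    rw [hx, hy, hN]
    exact coord_sq_int_gen v (f n)
  have hxle : ∀ n, |((x n : ℤ) : ℝ)| ≤ nv * ρ n := by
    intro n
    apply abs_le_of_sq_le_sq _ (mul_nonneg hnv0 (hρ0 n))
    rw [mul_pow, ← hF1 n]
    nlinarith [sq_nonneg ((y n : ℤ) : ℝ)]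
  have hρle : ∀ n, ρ n ≤ |((x n : ℤ) : ℝ)| + |((y n : ℤ) : ℝ)| := by
    intro n
    have hs0 : 0 ≤ |((x n : ℤ) : ℝ)| + |((y n : ℤ) : ℝ)| := by positivity
    refine (pow_le_pow_iff_left₀ (hρ0 n) hs0 two_ne_zero).mp ?_
    have h1 : ρ n ^ 2 ≤ nv ^ 2 * ρ n ^ 2 := by
      have h1' : 1 ≤ nv ^ 2 := by nlinarith
      nlinarith [sq_nonneg (ρ n)]
    have h2 : (|((x n : ℤ) : ℝ)| + |((y n : ℤ) : ℝ)|) ^ 2
        = ((x n : ℤ) : ℝ) ^ 2 + ((y n : ℤ) : ℝ) ^ 2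
          + 2 * |((x n : ℤ) : ℝ)| * |((y n : ℤ) : ℝ)| := by
      rw [add_sq, sq_abs, sq_abs]
      ring
    have h3 : 0 ≤ 2 * |((x n : ℤ) : ℝ)| * |((y n : ℤ) : ℝ)| := by positivity
    rw [h2, hF1 n]
    linarith
  obtain ⟨m, hm⟩ : ∃ m : ℕ, m = ⌈nv * D⌉₊ := ⟨_, rfl⟩
  have hnvD : 1 ≤ nv * D := by nlinarith
  have hm1 : 1 ≤ m := by
    rw [hm]
    exact Nat.ceil_pos.2 (by linarith)
  have hm2 : (m : ℝ) ≤ 2 * nv * D := by
    have h1 := Nat.ceil_lt_add_one (show 0 ≤ nv * D by linarith)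
    rw [← hm] at h1
    linarith
  have hstepZ : ∀ n, |x (n + 1) - x n| ≤ (m : ℤ) := by
    intro n
    have h1 := step_bound_gen v (f n) (f (n + 1)) D (hstep n)
    rw [← hx, ← hx, ← hnvdef] at h1
    have h2 : |((x (n + 1) : ℤ) : ℝ) - ((x n : ℤ) : ℝ)| ≤ (m : ℝ) := by
      rw [hm]
      exact h1.trans (Nat.le_ceil _)
    exact_mod_cast h2
  have hF3 : ∀ n, |((y n : ℤ) : ℝ) - t0| ≤ nv * h (ρ n) := by
    intro n
    obtain ⟨t, ht⟩ := hline n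
    rw [← hρ] at ht
    have h1 := dist_line_bound_gen v z₀ (f n) t (h (ρ n)) ht
    rw [← hy, ← ht0, ← hnvdef] at h1
    exact h1
  obtain ⟨X, hX⟩ := Filter.eventually_atTop.1 hh
  obtain ⟨X0, hX01, hX0X⟩ : ∃ X0 : ℝ, 1 ≤ X0 ∧ X ≤ X0 :=
    ⟨max X 1, le_max_right _ _, le_max_left _ _⟩
  obtain ⟨K₀, hK₀⟩ := hwallC m hm1
  obtain ⟨K, hK1, hK2, hK3, hK4, hK5, hK6⟩ :
      ∃ K : ℕ, K₀ ≤ K ∧ m + 3 ≤ K ∧ 4 * |t0| ≤ (K : ℝ) ∧ (N : ℝ) * X0 ≤ K ∧ N ≤ (K : ℤ) ∧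
        |x 0| ≤ (K : ℤ) := by
    refine ⟨K₀ + m + 3 + ⌈4 * |t0|⌉₊ + ⌈(N : ℝ) * X0⌉₊ + N.natAbs + (x 0).natAbs,
      by omega, by omega, ?_, ?_, ?_, ?_⟩
    · push_cast
      have h0 := Nat.le_ceil (4 * |t0|)
      have h1 : (0 : ℝ) ≤ (K₀ : ℝ) := Nat.cast_nonneg K₀
      have h2 : (0 : ℝ) ≤ (m : ℝ) := Nat.cast_nonneg m
      have h3 : (0 : ℝ) ≤ (⌈(N : ℝ) * X0⌉₊ : ℝ) := Nat.cast_nonneg _
      have h4 : (0 : ℝ) ≤ |(N : ℝ)| := abs_nonneg _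
      have h5 : (0 : ℝ) ≤ |((x 0 : ℤ) : ℝ)| := abs_nonneg _
      linarith
    · push_cast
      have h1 := Nat.le_ceil ((N : ℝ) * X0)
      have h2 : (0 : ℝ) ≤ (m : ℝ) := Nat.cast_nonneg m
      have h3 : (0 : ℝ) ≤ (⌈4 * |t0|⌉₊ : ℝ) := Nat.cast_nonneg _
      have h4 : (0 : ℝ) ≤ (K₀ : ℝ) := Nat.cast_nonneg K₀
      have h5 : (0 : ℝ) ≤ |(N : ℝ)| := abs_nonneg _
      have h6 : (0 : ℝ) ≤ |((x 0 : ℤ) : ℝ)| := abs_nonneg _
      linarith
    · push_cast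
      have h1 : (0 : ℤ) ≤ (K₀ : ℤ) := Int.natCast_nonneg K₀
      have h2 : (0 : ℤ) ≤ (m : ℤ) := Int.natCast_nonneg m
      have h3 : (0 : ℤ) ≤ (⌈(N : ℝ) * X0⌉₊ : ℤ) := Int.natCast_nonneg _
      have h4 : N ≤ |N| := le_abs_self _
      have h5 : (0 : ℤ) ≤ |x 0| := abs_nonneg _
      have h6 : (0 : ℤ) ≤ (⌈4 * |t0|⌉₊ : ℤ) := Int.natCast_nonneg _
      linarith
    · push_cast
      have h1 : (0 : ℤ) ≤ (K₀ : ℤ) := Int.natCast_nonneg K₀
      have h2 : (0 : ℤ) ≤ (m : ℤ) := Int.natCast_nonneg m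
      have h3 : (0 : ℤ) ≤ (⌈(N : ℝ) * X0⌉₊ : ℤ) := Int.natCast_nonneg _
      have h4 : (0 : ℤ) ≤ |N| := abs_nonneg _
      have h6 : (0 : ℤ) ≤ (⌈4 * |t0|⌉₊ : ℤ) := Int.natCast_nonneg _
      linarith
  obtain ⟨P, hKP, hlogP, hw⟩ := hK₀ K hK1
  have hKPZ : (K : ℤ) ≤ (P : ℤ) := by exact_mod_cast hKP
  have hwidth : ∀ n, X0 ≤ ρ n → |x n| ≤ (P : ℤ) + m + 2 → |y n| ≤ (K : ℤ) := by
    intro n hρn hxn
    have hY : |((y n : ℤ) : ℝ)| ≤ |t0| + nv * h (ρ n) := by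
      have h1 := hF3 n
      have h2 : |((y n : ℤ) : ℝ)| ≤ |((y n : ℤ) : ℝ) - t0| + |t0| := by
        have h3 := abs_add_le (((y n : ℤ) : ℝ) - t0) t0
        rwa [sub_add_cancel] at h3
      linarith
    have hhv : h (ρ n) ≤ 1 / (8 * nv ^ 2 * (C + 1)) * Real.log (ρ n) / D :=
      hX (ρ n) (by linarith)
    have hXr : |((x n : ℤ) : ℝ)| ≤ (P : ℝ) + m + 2 := by exact_mod_cast hxn
    have key := width_control_gen nv C (1 / (8 * nv ^ 2 * (C + 1))) D m K P |((y n : ℤ) : ℝ)| t0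
      (ρ n) (h (ρ n)) |((x n : ℤ) : ℝ)|
      hnv1 hC rfl hD1 (by exact_mod_cast hm1) hm2 (by exact_mod_cast hK2)
      (by exact_mod_cast hKP) hK3 hlogP (by linarith) hhv (abs_nonneg _)
      hY hXr (hρle n)
    exact_mod_cast key
  have hbarrier : ∀ n, ¬ ((P : ℤ) + 2 ≤ |x n| ∧ |x n| ≤ (P : ℤ) + m + 2) := by
    rintro n ⟨h1, h2⟩
    have hρn : X0 ≤ ρ n := by
      have h3 := hxle n
      have h4 : (P : ℝ) + 2 ≤ |((x n : ℤ) : ℝ)| := by exact_mod_cast h1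
      have h5 : (N : ℝ) * X0 ≤ (P : ℝ) := hK4.trans (by exact_mod_cast hKP)
      have h6 : nv * ρ n ≤ (N : ℝ) * ρ n := mul_le_mul_of_nonneg_right hnvN (hρ0 n)
      have h7 : (N : ℝ) * X0 ≤ (N : ℝ) * ρ n := by linarith
      exact le_of_mul_le_mul_left h7 (by linarith)
    have hyK := hwidth n hρn h2
    obtain ⟨q, hq, hq4, hBq, hqP, hdvd⟩ :=
      hw (|x n| - P) (y n) (by linarith) (by linarith) hyK
    have he : ((P : ℤ) + (|x n| - P)) ^ 2 + y n ^ 2 = N * (f n).norm := by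
      rw [← hF1Z n]
      have h3 : (P : ℤ) + (|x n| - P) = |x n| := by ring
      rw [h3, sq_abs]
    rw [he] at hdvd
    have hNq : N < (q : ℤ) := by
      have h3 : ((N.toNat : ℕ) : ℤ) = N := Int.toNat_of_nonneg (by linarith)
      have h4 : ((N.toNat : ℕ) : ℤ) < (q : ℤ) := by exact_mod_cast hBq
      linarith
    have hqN : ¬ (q : ℤ) ∣ N := by
      intro hd
      have h3 := Int.le_of_dvd (by linarith) hd
      linarith
    have hdvd2 : (q : ℤ) ∣ (f n).norm := by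
      rcases Int.Prime.dvd_mul' hq hdvd with h3 | h3
      · exact absurd h3 hqN
      · exact h3
    have hlt : (q : ℤ) < (f n).norm := by
      have h3 : ((P : ℤ) + 2) ^ 2 ≤ N * (f n).norm := by
        rw [← hF1Z n]
        have h4 : ((P : ℤ) + 2) ^ 2 ≤ |x n| ^ 2 :=
          pow_le_pow_left₀ (by positivity) h1 2
        rw [sq_abs] at h4
        nlinarith [sq_nonneg (y n)]
      have hPq : (q : ℤ) ≤ P := by exact_mod_cast hqP
      have hNP : N ≤ (P : ℤ) := hK5.trans hKPZ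
      have hP0 : (0 : ℤ) ≤ (P : ℤ) := Int.natCast_nonneg P
      by_contra hcon
      push Not at hcon
      have h5 : N * (f n).norm ≤ N * (P : ℤ) :=
        mul_le_mul_of_nonneg_left (by linarith) (by linarith)
      have h6 : N * (P : ℤ) ≤ (P : ℤ) * (P : ℤ) := mul_le_mul_of_nonneg_right hNP hP0
      nlinarith
    exact not_irreducible_of_split_dvd_norm q hq hq4 (f n) hdvd2 hlt (hirr n)
  have hP0 : (0 : ℤ) ≤ (P : ℤ) := Int.natCast_nonneg P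
  have hm0 : (0 : ℤ) ≤ (m : ℤ) := Int.natCast_nonneg m
  have hbar : ∀ n, ¬ ((P : ℤ) + 2 ≤ x n ∧ x n ≤ (P : ℤ) + m + 2) := by
    rintro n ⟨h1, h2⟩
    apply hbarrier n
    have h3 : |x n| = x n := abs_of_nonneg (by linarith)
    rw [h3]
    exact ⟨h1, h2⟩
  have hbar' : ∀ n, ¬ ((P : ℤ) + 2 ≤ -x n ∧ -x n ≤ (P : ℤ) + m + 2) := by
    rintro n ⟨h1, h2⟩
    apply hbarrier n
    have h3 : |x n| = -x n := abs_of_nonpos (by linarith)
    rw [h3]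
    exact ⟨h1, h2⟩
  have h0 : |x 0| < (P : ℤ) + 2 := by linarith
  have hconf : ∀ n, |x n| < (P : ℤ) + 2 := confined x m P hstepZ hbar hbar' h0
  have hbound : ∀ n, ρ n ≤ X0 + P + 2 + K := by
    intro n
    have hPr : (0 : ℝ) ≤ (P : ℝ) := Nat.cast_nonneg P
    have hKr : (0 : ℝ) ≤ (K : ℝ) := Nat.cast_nonneg K
    by_cases hρn : X0 ≤ ρ n
    · have hxn : |x n| ≤ (P : ℤ) + m + 2 := by
        have h1 := hconf n
        linarith
      have hyK := hwidth n hρn hxn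
      have h1 := hρle n
      have h2 : |((x n : ℤ) : ℝ)| ≤ (P : ℝ) + 2 := by exact_mod_cast (hconf n).le
      have h3 : |((y n : ℤ) : ℝ)| ≤ (K : ℝ) := by exact_mod_cast hyK
      linarith
    · push Not at hρn
      linarith
  obtain ⟨R, hR⟩ : ∃ R : ℕ, R = ⌈X0⌉₊ + P + 2 + K := ⟨_, rfl⟩
  have hRb : ∀ n, ρ n ≤ (R : ℝ) := by
    intro n
    have h1 := hbound n
    have h2 := Nat.le_ceil X0
    rw [hR]
    push_cast
    linarith
  have hre : ∀ n, |((f n).re : ℝ)| ≤ ρ n := by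
    intro n
    rw [hρ, GaussianInt.intCast_re]
    exact Complex.abs_re_le_norm _
  have him : ∀ n, |((f n).im : ℝ)| ≤ ρ n := by
    intro n
    rw [hρ, GaussianInt.intCast_im]
    exact Complex.abs_im_le_norm _
  have hfin : {z : GaussianInt | (z.re, z.im) ∈
      (Set.Icc (-(R : ℤ)) R) ×ˢ (Set.Icc (-(R : ℤ)) R)}.Finite := by
    apply Set.Finite.preimage
    · intro z _ z' _ hzz'
      simp only [Prod.mk.injEq] at hzz'
      exact Zsqrtd.ext hzz'.1 hzz'.2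
    · exact (Set.finite_Icc _ _).prod (Set.finite_Icc _ _)
  have hsub : Set.range f ⊆ {z : GaussianInt | (z.re, z.im) ∈
      (Set.Icc (-(R : ℤ)) R) ×ˢ (Set.Icc (-(R : ℤ)) R)} := by
    rintro z ⟨n, rfl⟩
    have bre : |(f n).re| ≤ (R : ℤ) := by exact_mod_cast (hre n).trans (hRb n)
    have bim : |(f n).im| ≤ (R : ℤ) := by exact_mod_cast (him n).trans (hRb n)
    simp only [Set.mem_ofPred_eq, Set.mem_prod, Set.mem_Icc]
    exact ⟨abs_le.1 bre, abs_le.1 bim⟩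
  exact (Set.infinite_range_of_injective hinj) (hfin.subset hsub)

end Vale.Agent.Lib.P015
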