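import Mathlib
import Vale.Agent.Lib.P015.Log.Analytic
import Vale.Agent.Lib.P015.Log.Wall

/-!
# P015: sieve walls whose covering primes avoid a prescribed initial segment

These are the variants of the statements of `Wall.lean` and `ExistsWall.lean` that return the
prime dividing the norm (instead of reducibility) and use only primes above a bound `B`.
-/

namespace Vale.Agent.Lib.P015

/-- A wall from a covering system of residues, returning the covering prime. -/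
theorem wall_of_residues_dvd (m K : ℕ) (Q : Finset ℕ) (c : ℕ → ℕ)
    (hQ : ∀ q ∈ Q, q.Prime)
    (hcov : ∀ x ∈ wallBox m K,
      ∃ q ∈ Q, (q : ℤ) ∣ ((c q : ℤ) + (x.1 : ℤ)) ^ 2 + (x.2 : ℤ) ^ 2) :
    ∃ P : ℕ, K ≤ P ∧ P < (∏ q ∈ Q, q) * (K + 2) ∧
      ∀ a b : ℤ, 2 ≤ a → a ≤ m + 2 → |b| ≤ K →
        ∃ q ∈ Q, q ≤ P ∧ (q : ℤ) ∣ ((P : ℤ) + a) ^ 2 + b ^ 2 := by
  have hs : ∀ i ∈ Q, (id i : ℕ) ≠ 0 := fun i hi => (hQ i hi).ne_zero
  have pp : (Q : Set ℕ).Pairwise (Function.onFun Nat.Coprime id) := by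
    intro i hi j hj hij
    exact (Nat.coprime_primes (hQ i hi) (hQ j hj)).2 hij
  set P₀ := Nat.chineseRemainderOfFinset c id Q hs pp with hP₀
  have hlt : (P₀ : ℕ) < ∏ i ∈ Q, id i := Nat.chineseRemainderOfFinset_lt_prod c id hs pp
  have hmod := P₀.2
  set M : ℕ := ∏ q ∈ Q, q with hM
  have hlt' : (P₀ : ℕ) < M := by simpa using hlt
  have hMpos : 0 < M := Finset.prod_pos (fun q hq => (hQ q hq).pos)
  refine ⟨(P₀ : ℕ) + M * (K + 1), ?_, ?_, ?_⟩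
  · nlinarith
  · nlinarith
  · intro a b ha2 ham hb
    have hbn : (b.natAbs : ℤ) = |b| := Int.natCast_natAbs b
    have hx : (a.toNat, b.natAbs) ∈ wallBox m K := by
      unfold wallBox
      rw [Finset.mem_product, Finset.mem_Icc, Finset.mem_range]
      refine ⟨⟨?_, ?_⟩, ?_⟩ <;> omega
    obtain ⟨q, hqQ, hdvd⟩ := hcov _ hx
    simp only at hdvd
    rw [Int.toNat_of_nonneg (by omega), hbn, sq_abs] at hdvd
    have hqM : q ∣ M := Finset.dvd_prod_of_mem (fun q => q) hqQ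
    have h1 : (q : ℤ) ∣ (c q : ℤ) - ((P₀ : ℕ) : ℤ) := by
      have := hmod q hqQ
      exact Nat.modEq_iff_dvd.1 this
    have h2 : (q : ℤ) ∣ (M : ℤ) := Int.natCast_dvd_natCast.2 hqM
    set P : ℕ := (P₀ : ℕ) + M * (K + 1) with hP
    have h3 : (q : ℤ) ∣ ((P : ℤ) + a) ^ 2 + b ^ 2 := by
      obtain ⟨k, hk⟩ := h1
      obtain ⟨l, hl⟩ := h2
      obtain ⟨j, hj⟩ := hdvd
      refine ⟨j + (l * (K + 1) - k) * ((P : ℤ) + c q + 2 * a), ?_⟩
      have hPc : (P : ℤ) - (c q : ℤ) = (q : ℤ) * (l * (K + 1) - k) := by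
        rw [hP]
        push_cast
        rw [hl] at *
        linear_combination -hk
      linear_combination hj + ((P : ℤ) + c q + 2 * a) * hPc
    have hqP : q ≤ P := by
      have h4 : q ≤ M := Nat.le_of_dvd hMpos hqM
      rw [hP]
      nlinarith
    exact ⟨q, hqQ, hqP, h3⟩

/-- The variant of `wall_of_cover` that returns the covering prime, all covering primes
being congruent to `1` modulo `4` and larger than `B`. -/
theorem wall_of_cover_dvd (m K y A B : ℕ) (hA : 1 ≤ A) (hBy : B ≤ y) (S T : Finset ℕ)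
    (r : ℕ → ℕ)
    (hS : ∀ p ∈ S, p.Prime ∧ p % 4 = 1 ∧ B < p ∧ p ≤ y)
    (hT : ∀ p ∈ T, p.Prime ∧ p % 4 = 1 ∧ y < p ∧ p ≤ A * y)
    (hcard : ((wallBox m K).filter (fun x : ℕ × ℕ =>
        ∀ p ∈ S, ¬ (p : ℤ) ∣ ((r p : ℤ) + (x.1 : ℤ)) ^ 2 + (x.2 : ℤ) ^ 2)).card ≤ T.card) :
    ∃ P : ℕ, K ≤ P ∧ P < 4 ^ (A * y) * (K + 2) ∧
      ∀ a b : ℤ, 2 ≤ a → a ≤ m + 2 → |b| ≤ K →
        ∃ q : ℕ, q.Prime ∧ q % 4 = 1 ∧ B < q ∧ q ≤ P ∧
          (q : ℤ) ∣ ((P : ℤ) + a) ^ 2 + b ^ 2 := by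
  classical
  set U : Finset (ℕ × ℕ) := (wallBox m K).filter (fun x : ℕ × ℕ =>
        ∀ p ∈ S, ¬ (p : ℤ) ∣ ((r p : ℤ) + (x.1 : ℤ)) ^ 2 + (x.2 : ℤ) ^ 2) with hU
  obtain ⟨T', hT'sub, hT'card⟩ := Finset.exists_subset_card_eq hcard
  have e : ↥U ≃ ↥T' := Finset.equivOfCardEq hT'card.symm
  have hres : ∀ (q : ℕ) (x : ℕ × ℕ), ∃ ρ : ℕ,
      q ∈ T → (q : ℤ) ∣ ((ρ : ℤ) + (x.1 : ℤ)) ^ 2 + (x.2 : ℤ) ^ 2 := by
    intro q x
    by_cases hq : q ∈ T
    · have h1 := one_le_card_cover q (hT q hq).1 (hT q hq).2.1 (x.1 : ℤ) (x.2 : ℤ)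
      obtain ⟨ρ, hρ⟩ := Finset.card_pos.1 (lt_of_lt_of_le Nat.zero_lt_one h1)
      exact ⟨ρ, fun _ => (Finset.mem_filter.1 hρ).2⟩
    · exact ⟨0, fun h => absurd h hq⟩
  choose ρ hρ using hres
  set c : ℕ → ℕ := fun q =>
    if q ∈ S then r q else if h : q ∈ T' then ρ q (e.symm ⟨q, h⟩).1 else 0 with hc
  have hdisj : ∀ q ∈ T', q ∉ S := by
    intro q hq hqS
    have h1 := (hT q (hT'sub hq)).2.2.1
    have h2 := (hS q hqS).2.2.2
    omega
  have hQ : ∀ q ∈ S ∪ T', q.Prime ∧ q % 4 = 1 ∧ B < q := by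
    intro q hq
    rcases Finset.mem_union.1 hq with h | h
    · exact ⟨(hS q h).1, (hS q h).2.1, (hS q h).2.2.1⟩
    · exact ⟨(hT q (hT'sub h)).1, (hT q (hT'sub h)).2.1,
        lt_of_le_of_lt hBy (hT q (hT'sub h)).2.2.1⟩
  have hcov : ∀ x ∈ wallBox m K,
      ∃ q ∈ S ∪ T', (q : ℤ) ∣ ((c q : ℤ) + (x.1 : ℤ)) ^ 2 + (x.2 : ℤ) ^ 2 := by
    intro x hx
    by_cases hex : ∃ p ∈ S, (p : ℤ) ∣ ((r p : ℤ) + (x.1 : ℤ)) ^ 2 + (x.2 : ℤ) ^ 2
    · obtain ⟨p, hp, hdvd⟩ := hex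
      refine ⟨p, Finset.mem_union_left _ hp, ?_⟩
      have : c p = r p := by simp [hc, hp]
      rw [this]
      exact hdvd
    · have hxU : x ∈ U := by
        rw [hU, Finset.mem_filter]
        refine ⟨hx, fun p hp hdvd => hex ⟨p, hp, hdvd⟩⟩
      have hq' : (e ⟨x, hxU⟩).1 ∈ T' := (e ⟨x, hxU⟩).2
      refine ⟨(e ⟨x, hxU⟩).1, Finset.mem_union_right _ hq', ?_⟩
      have hcq : c (e ⟨x, hxU⟩).1 = ρ (e ⟨x, hxU⟩).1 x := by
        simp only [hc]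
        rw [if_neg (hdisj _ hq'), dif_pos hq']
        simp
      rw [hcq]
      exact hρ _ x (hT'sub hq')
  obtain ⟨P, hKP, hPlt, hwall⟩ :=
    wall_of_residues_dvd m K (S ∪ T') c (fun q hq => (hQ q hq).1) hcov
  refine ⟨P, hKP, lt_of_lt_of_le hPlt ?_, ?_⟩
  · apply Nat.mul_le_mul_right
    have hsub : S ∪ T' ⊆ (Finset.range (A * y + 1)).filter Nat.Prime := by
      intro q hq
      rw [Finset.mem_filter, Finset.mem_range]
      rcases Finset.mem_union.1 hq with h | h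
      · have h1 := (hS q h).2.2.2
        refine ⟨?_, (hS q h).1⟩
        nlinarith
      · have h1 := (hT q (hT'sub h)).2.2.2
        exact ⟨by omega, (hT q (hT'sub h)).1⟩
    have h1 : ∏ q ∈ S ∪ T', q ≤ primorial (A * y) := by
      unfold primorial
      apply Finset.prod_le_prod_of_subset_of_one_le' hsub
      intro i hi _
      exact (Finset.mem_filter.1 hi).2.one_le
    exact h1.trans (primorial_le_four_pow _)
  · intro a b ha2 ham hb
    obtain ⟨q, hqQ, hqP, hdvd⟩ := hwall a b ha2 ham hb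
    exact ⟨q, (hQ q hqQ).1, (hQ q hqQ).2.1, (hQ q hqQ).2.2, hqP, hdvd⟩

/-- The sum of the reciprocals of the primes congruent to `1` modulo `4` in `(B, N]`. -/
theorem sum_inv_primes_one_mod_four_gt (B : ℕ) : ∃ C : ℝ, ∀ N : ℕ, 2 ≤ N → B ≤ N →
    Real.log (Real.log ((N : ℝ) + 1)) / 2 - C
      ≤ ∑ p ∈ (Finset.Ioc B N).filter (fun p => p.Prime ∧ p % 4 = 1), 1 / (p : ℝ) := by
  obtain ⟨C₁, hC₁⟩ := sum_inv_primes_one_mod_four
  refine ⟨C₁ + B, fun N hN hBN => ?_⟩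
  have h1 := hC₁ N hN
  have hsplit : (Finset.Ioc 0 N).filter (fun p => p.Prime ∧ p % 4 = 1)
      = (Finset.Ioc 0 B).filter (fun p => p.Prime ∧ p % 4 = 1)
        ∪ (Finset.Ioc B N).filter (fun p => p.Prime ∧ p % 4 = 1) := by
    rw [← Finset.filter_union, Finset.Ioc_union_Ioc_eq_Ioc (Nat.zero_le B) hBN]
  have hdisj : Disjoint ((Finset.Ioc 0 B).filter (fun p => p.Prime ∧ p % 4 = 1))
      ((Finset.Ioc B N).filter (fun p => p.Prime ∧ p % 4 = 1)) := by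
    rw [Finset.disjoint_left]
    intro p hp hp'
    have h2 := (Finset.mem_Ioc.1 (Finset.mem_filter.1 hp).1).2
    have h3 := (Finset.mem_Ioc.1 (Finset.mem_filter.1 hp').1).1
    omega
  rw [hsplit, Finset.sum_union hdisj] at h1
  have h4 : ∑ p ∈ (Finset.Ioc 0 B).filter (fun p => p.Prime ∧ p % 4 = 1), 1 / (p : ℝ)
      ≤ (B : ℝ) := by
    calc ∑ p ∈ (Finset.Ioc 0 B).filter (fun p => p.Prime ∧ p % 4 = 1), 1 / (p : ℝ)
        ≤ ∑ p ∈ (Finset.Ioc 0 B).filter (fun p => p.Prime ∧ p % 4 = 1), (1 : ℝ) := by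
          apply Finset.sum_le_sum
          intro p hp
          have hp1 : (1 : ℝ) ≤ (p : ℝ) := by
            exact_mod_cast (Finset.mem_filter.1 hp).2.1.one_le
          rw [div_le_one (by linarith)]
          exact hp1
      _ = (((Finset.Ioc 0 B).filter (fun p => p.Prime ∧ p % 4 = 1)).card : ℝ) := by
          simp
      _ ≤ ((Finset.Ioc 0 B).card : ℝ) := by
          exact_mod_cast Finset.card_filter_le _ _
      _ = (B : ℝ) := by simp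
  linarith

/-- The wall theorem with covering primes above `B`: there are constants `C` and `K₁`
(depending on `B`) such that for every `m ≥ 1` and every `K ≥ K₁ m` there is a position
`P ≥ K` with `log P ≤ C m K` such that every `(P + a) ^ 2 + b ^ 2` with `2 ≤ a ≤ m + 2`,
`|b| ≤ K` is divisible by a prime `q ≡ 1 (mod 4)` with `B < q ≤ P`. -/
theorem exists_wall_unif (B : ℕ) : ∃ C : ℝ, 0 < C ∧ ∃ K₁ : ℕ, ∀ m : ℕ, 1 ≤ m →
    ∀ K : ℕ, K₁ * m ≤ K →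
    ∃ P : ℕ, K ≤ P ∧ Real.log P ≤ C * m * K ∧
      ∀ a b : ℤ, 2 ≤ a → a ≤ m + 2 → |b| ≤ K →
        ∃ q : ℕ, q.Prime ∧ q % 4 = 1 ∧ B < q ∧ q ≤ P ∧
          (q : ℤ) ∣ ((P : ℤ) + a) ^ 2 + b ^ 2 := by
  obtain ⟨C₁, hC₁⟩ := sum_inv_primes_one_mod_four_gt B
  obtain ⟨A, y₀, hA, hsupply⟩ := primes_one_mod_four_supply
  set C₇ : ℝ := Real.exp (2 + 2 * C₁) with hC₇
  have hC₇pos : 0 < C₇ := Real.exp_pos _
  set c₆ : ℕ := ⌈C₇⌉₊ + 1 with hc₆
  have hc₆1 : 1 ≤ c₆ := by omega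
  have hc₆C : C₇ ≤ (c₆ : ℝ) := by
    rw [hc₆]
    push_cast
    linarith [Nat.le_ceil C₇]
  have hc₆r : (1 : ℝ) ≤ (c₆ : ℝ) := by exact_mod_cast hc₆1
  have hAr : (2 : ℝ) ≤ (A : ℝ) := by exact_mod_cast hA
  refine ⟨3 * A * c₆ + 2, by positivity, y₀ + B + 18, fun m hm K hK' => ?_⟩
  have hK : 16 * m + y₀ + B + 2 ≤ K := by nlinarith
  have hmr : (1 : ℝ) ≤ (m : ℝ) := by exact_mod_cast hm
  have hK16 : (16 : ℝ) * m ≤ (K : ℝ) := by exact_mod_cast (by omega : 16 * m ≤ K)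
  have hK2 : (2 : ℝ) ≤ (K : ℝ) := by exact_mod_cast (by omega : 2 ≤ K)
  set y : ℕ := c₆ * m * K with hy
  have hyK : K ≤ y := by
    rw [hy]
    have : 1 ≤ c₆ * m := Nat.mul_pos hc₆1 hm
    nlinarith
  have hy2 : 2 ≤ y := by omega
  have hyy₀ : y₀ ≤ y := by omega
  have hBy : B ≤ y := by omega
  have hyr : (y : ℝ) = (c₆ : ℝ) * m * K := by
    rw [hy]
    push_cast
    ring
  set S : Finset ℕ := (Finset.Ioc B y).filter (fun p => p.Prime ∧ p % 4 = 1) with hS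
  set T : Finset ℕ := (Finset.Ioc y (A * y)).filter (fun p => p.Prime ∧ p % 4 = 1) with hT
  have hSp : ∀ p ∈ S, p.Prime ∧ p % 4 = 1 := fun p hp => (Finset.mem_filter.1 hp).2
  obtain ⟨r, hr⟩ := cover_bound S hSp m K
  have hy2r : (2 : ℝ) ≤ (y : ℝ) := by exact_mod_cast hy2
  have hL : 0 < Real.log y := Real.log_pos (by linarith)
  have hL1 : Real.log y ≤ Real.log ((y : ℝ) + 1) :=
    Real.log_le_log (by linarith) (by linarith)
  have hprod : ∏ p ∈ S, (1 - 2 / (p : ℝ) + 2 / (p : ℝ) ^ 2) ≤ (c₆ : ℝ) / Real.log y := by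
    have h1 := prod_sieve_factor_le S (fun p hp => (hSp p hp).1.two_le)
    have h2 := hC₁ y hy2 hBy
    have h4 : 2 - 2 * ∑ p ∈ S, 1 / (p : ℝ)
        ≤ (2 + 2 * C₁) - Real.log (Real.log ((y : ℝ) + 1)) := by
      linarith
    have h3 : Real.exp (2 - 2 * ∑ p ∈ S, 1 / (p : ℝ)) ≤ C₇ / Real.log ((y : ℝ) + 1) := by
      calc Real.exp (2 - 2 * ∑ p ∈ S, 1 / (p : ℝ))
          ≤ Real.exp ((2 + 2 * C₁) - Real.log (Real.log ((y : ℝ) + 1))) :=
            Real.exp_le_exp.2 h4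
        _ = C₇ / Real.log ((y : ℝ) + 1) := by
            rw [Real.exp_sub, Real.exp_log (lt_of_lt_of_le hL hL1)]
    have h5 : C₇ / Real.log ((y : ℝ) + 1) ≤ C₇ / Real.log y :=
      div_le_div_of_nonneg_left hC₇pos.le hL hL1
    have h6 : C₇ / Real.log y ≤ (c₆ : ℝ) / Real.log y :=
      div_le_div_of_nonneg_right hc₆C hL.le
    linarith
  have hlog : 2 * Real.log y ≤ (c₆ : ℝ) * K := by
    have hypos : (0 : ℝ) < y := by linarith
    have h1 : Real.log y = 2 * Real.log (Real.sqrt y) := by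
      rw [Real.log_sqrt hypos.le]
      ring
    have h2 : Real.log (Real.sqrt y) ≤ Real.sqrt y - 1 :=
      Real.log_le_sub_one_of_pos (Real.sqrt_pos.2 hypos)
    have h3 : Real.sqrt y ≤ (c₆ : ℝ) * K / 4 := by
      rw [Real.sqrt_le_iff]
      refine ⟨by positivity, ?_⟩
      rw [hyr]
      have h16 : (16 : ℝ) * m ≤ c₆ * K := by nlinarith
      have hcK : (0 : ℝ) ≤ c₆ * K := by positivity
      nlinarith
    linarith
  have hUT : ((wallBox m K).filter (fun x : ℕ × ℕ =>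
        ∀ p ∈ S, ¬ (p : ℤ) ∣ ((r p : ℤ) + (x.1 : ℤ)) ^ 2 + (x.2 : ℤ) ^ 2)).card ≤ T.card := by
    have h1 : ((((wallBox m K).filter (fun x : ℕ × ℕ =>
        ∀ p ∈ S, ¬ (p : ℤ) ∣ ((r p : ℤ) + (x.1 : ℤ)) ^ 2 + (x.2 : ℤ) ^ 2)).card : ℕ) : ℝ)
        ≤ 3 * (y : ℝ) / Real.log y := by
      refine hr.trans ?_
      have hK0 : (0 : ℝ) ≤ (K : ℝ) := Nat.cast_nonneg K
      have hX : (0 : ℝ) ≤ 1 + (K : ℝ) * ((c₆ : ℝ) / Real.log y) := by positivity
      calc ((m : ℝ) + 1) * (1 + (K : ℝ) * ∏ p ∈ S, (1 - 2 / (p : ℝ) + 2 / (p : ℝ) ^ 2))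
          ≤ ((m : ℝ) + 1) * (1 + (K : ℝ) * ((c₆ : ℝ) / Real.log y)) := by
            apply mul_le_mul_of_nonneg_left _ (by positivity)
            have := mul_le_mul_of_nonneg_left hprod hK0
            linarith
        _ ≤ (2 * (m : ℝ)) * (1 + (K : ℝ) * ((c₆ : ℝ) / Real.log y)) := by
            apply mul_le_mul_of_nonneg_right _ hX
            linarith
        _ ≤ 3 * (y : ℝ) / Real.log y := by
            rw [le_div_iff₀ hL]
            have h7 : (2 * (m : ℝ)) * (1 + (K : ℝ) * ((c₆ : ℝ) / Real.log y)) * Real.log y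
                = 2 * m * Real.log y + 2 * m * K * c₆ := by
              field_simp
            have h9 : 3 * (y : ℝ) = 3 * ((c₆ : ℝ) * m * K) := by rw [hyr]
            rw [h7, h9]
            have h8 : (m : ℝ) * (2 * Real.log y) ≤ (m : ℝ) * ((c₆ : ℝ) * K) :=
              mul_le_mul_of_nonneg_left hlog (by positivity)
            nlinarith
    have h2 := hsupply y hyy₀
    exact_mod_cast h1.trans h2
  obtain ⟨P, hKP, hPlt, hwall⟩ := wall_of_cover_dvd m K y A B (by omega) hBy S T r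
    (fun p hp => by
      have h1 := Finset.mem_filter.1 hp
      exact ⟨h1.2.1, h1.2.2, (Finset.mem_Ioc.1 h1.1).1, (Finset.mem_Ioc.1 h1.1).2⟩)
    (fun p hp => by
      have h1 := Finset.mem_filter.1 hp
      exact ⟨h1.2.1, h1.2.2, (Finset.mem_Ioc.1 h1.1).1, (Finset.mem_Ioc.1 h1.1).2⟩)
    hUT
  refine ⟨P, hKP, ?_, hwall⟩
  have hPpos : (0 : ℝ) < (P : ℝ) := by exact_mod_cast (by omega : 0 < P)
  have h1 : (P : ℝ) ≤ (4 : ℝ) ^ (A * y) * ((K : ℝ) + 2) := by exact_mod_cast hPlt.le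
  have h2 : Real.log P ≤ Real.log ((4 : ℝ) ^ (A * y) * ((K : ℝ) + 2)) :=
    Real.log_le_log hPpos h1
  rw [Real.log_mul (by positivity) (by positivity), Real.log_pow] at h2
  have h3 : Real.log 4 ≤ 3 := by
    have := Real.log_le_sub_one_of_pos (show (0 : ℝ) < 4 by norm_num)
    linarith
  have h4 : Real.log ((K : ℝ) + 2) ≤ (K : ℝ) + 1 := by
    have := Real.log_le_sub_one_of_pos (show (0 : ℝ) < (K : ℝ) + 2 by positivity)
    linarith
  have h5 : ((A * y : ℕ) : ℝ) * Real.log 4 ≤ 3 * A * c₆ * m * K := by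
    have h6 : ((A * y : ℕ) : ℝ) = (A : ℝ) * ((c₆ : ℝ) * m * K) := by
      rw [Nat.cast_mul, hyr]
    rw [h6]
    have h7 : (0 : ℝ) ≤ (A : ℝ) * ((c₆ : ℝ) * m * K) := by positivity
    nlinarith
  have h6 : (K : ℝ) + 1 ≤ 2 * m * K := by nlinarith
  linarith

/-- The wall theorem with covering primes above `B`, with an unspecified threshold. -/
theorem exists_wall_gt (B : ℕ) : ∃ C : ℝ, 0 < C ∧ ∀ m : ℕ, 1 ≤ m → ∃ K₀ : ℕ,
    ∀ K : ℕ, K₀ ≤ K →
    ∃ P : ℕ, K ≤ P ∧ Real.log P ≤ C * m * K ∧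
      ∀ a b : ℤ, 2 ≤ a → a ≤ m + 2 → |b| ≤ K →
        ∃ q : ℕ, q.Prime ∧ q % 4 = 1 ∧ B < q ∧ q ≤ P ∧
          (q : ℤ) ∣ ((P : ℤ) + a) ^ 2 + b ^ 2 := by
  obtain ⟨C, hC, K₁, h⟩ := exists_wall_unif B
  exact ⟨C, hC, fun m hm => ⟨K₁ * m, fun K hK => h m hm K hK⟩⟩

/-- The uniform wall theorem in terms of reducibility: for `m ≥ 1` and `K ≥ K₁ m` there is a
position `P` with `K ≤ P` and `log P ≤ C m K` such that all Gaussian integers `x + y i` with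
`P + 2 ≤ |x| ≤ P + m + 2` and `|y| ≤ K` are reducible. -/
theorem exists_wall_unif_red : ∃ C : ℝ, 0 < C ∧ ∃ K₁ : ℕ, ∀ m : ℕ, 1 ≤ m →
    ∀ K : ℕ, K₁ * m ≤ K →
    ∃ P : ℕ, K ≤ P ∧ Real.log P ≤ C * m * K ∧
      ∀ a b : ℤ, 2 ≤ a → a ≤ m + 2 → |b| ≤ K →
        ¬ Irreducible (⟨P + a, b⟩ : GaussianInt) ∧
        ¬ Irreducible (⟨-(P + a), b⟩ : GaussianInt) := by
  obtain ⟨C, hC, K₁, h⟩ := exists_wall_unif 0
  refine ⟨C, hC, K₁, fun m hm K hK => ?_⟩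
  obtain ⟨P, hKP, hlogP, hw⟩ := h m hm K hK
  refine ⟨P, hKP, hlogP, fun a b ha2 ham hb => ?_⟩
  obtain ⟨q, hq, hq4, -, hqP, hdvd⟩ := hw a b ha2 ham hb
  have h4 : (q : ℤ) < ((P : ℤ) + a) ^ 2 + b ^ 2 := by
    have h5 : (q : ℤ) ≤ (P : ℤ) := by exact_mod_cast hqP
    have h6 : (0 : ℤ) ≤ (P : ℤ) := Int.natCast_nonneg P
    nlinarith [sq_nonneg b]
  constructor
  · apply not_irreducible_of_split_dvd_norm q hq hq4
    · rw [norm_mk']
      exact hdvd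
    · rw [norm_mk']
      exact h4
  · apply not_irreducible_of_split_dvd_norm q hq hq4
    · rw [norm_mk', neg_sq]
      exact hdvd
    · rw [norm_mk', neg_sq]
      exact h4

end Vale.Agent.Lib.P015
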