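import Mathlib
import Vale.Agent.Lib.P015.Log.WallGt
import Vale.Agent.Lib.P015.Log.LineGen

/-!
# P015: no walk to infinity on Gaussian primes in a logarithmic neighbourhood of a line
-/

namespace Vale.Agent.Lib.P015

/-- For every nonzero Gaussian integer `v` there is `c > 0` such that for every complex `z₀`
and every step bound `D > 0` no infinite walk on distinct Gaussian primes with steps at most
`D` stays within distance `h |z|` of the line `z₀ + t v`, as soon as `h x ≤ c log x / D` for
all large `x`. -/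
theorem no_walk_log_line (v : GaussianInt) (hv : v ≠ 0) :
    ∃ c : ℝ, 0 < c ∧ ∀ z₀ : ℂ, ∀ D : ℝ, 0 < D → ∀ h : ℝ → ℝ,
      (∀ᶠ x in Filter.atTop, h x ≤ c * Real.log x / D) →
      ¬ ∃ f : ℕ → GaussianInt, Function.Injective f ∧ (∀ n, Irreducible (f n)) ∧
        (∀ n, ‖GaussianInt.toComplex (f (n + 1)) - GaussianInt.toComplex (f n)‖ ≤ D) ∧
        (∀ n, ∃ t : ℝ, ‖GaussianInt.toComplex (f n) -
            (z₀ + (t : ℂ) * GaussianInt.toComplex v)‖
              ≤ h ‖GaussianInt.toComplex (f n)‖) :=
  no_walk_log_line_gen_of exists_wall_gt v hv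

end Vale.Agent.Lib.P015
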