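import Mathlib
import Vale.Agent.Lib.P015.WideningMain
import Vale.Agent.Lib.P015.Log.WallGt

/-!
# P015: an explicit bound for walks on Gaussian primes inside a horizontal strip
-/

namespace Vale.Agent.Lib.P015

/-- There is an absolute constant `C` such that for `D ≥ 1` and `K ≥ C D`, every walk on
Gaussian primes with steps at most `D` inside the strip `|Im z| ≤ K` that starts at a point
with `|Re z| ≤ K` stays in `|Re z| ≤ exp (C D K)`. -/
theorem strip_walk_bound : ∃ C : ℝ, 0 < C ∧ ∀ D K : ℝ, 1 ≤ D → C * D ≤ K →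
    ∀ f : ℕ → GaussianInt, (∀ n, Irreducible (f n)) →
      (∀ n, ‖GaussianInt.toComplex (f (n + 1)) - GaussianInt.toComplex (f n)‖ ≤ D) →
      (∀ n, |((f n).im : ℝ)| ≤ K) → |((f 0).re : ℝ)| ≤ K →
      ∀ n, |((f n).re : ℝ)| ≤ Real.exp (C * D * K) := by
  obtain ⟨C₀, hC₀, K₁, hw⟩ := exists_wall_unif_red
  have hK₁0 : (0 : ℝ) ≤ (K₁ : ℝ) := Nat.cast_nonneg K₁
  refine ⟨4 * C₀ + 2 * K₁ + 2, by positivity, ?_⟩
  intro D K hD hK f hirr hstep him h0
  have hK2 : 2 ≤ K := by nlinarith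
  set m : ℕ := ⌈D⌉₊ with hm
  have hm1 : 1 ≤ m := Nat.ceil_pos.2 (by linarith)
  have hm2 : (m : ℝ) ≤ 2 * D := by
    have := Nat.ceil_lt_add_one (show (0 : ℝ) ≤ D by linarith)
    linarith
  set K' : ℕ := ⌈K⌉₊ with hK'
  have hKK' : K ≤ (K' : ℝ) := Nat.le_ceil K
  have hK'2 : (K' : ℝ) ≤ 2 * K := by
    have := Nat.ceil_lt_add_one (show (0 : ℝ) ≤ K by linarith)
    linarith
  have hK₁m : K₁ * m ≤ K' := by
    have h1 : (K₁ : ℝ) * m ≤ K' := by
      have h2 : (K₁ : ℝ) * m ≤ K₁ * (2 * D) := mul_le_mul_of_nonneg_left hm2 hK₁0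
      nlinarith
    exact_mod_cast h1
  obtain ⟨P, hKP, hlogP, hwall⟩ := hw m hm1 K' hK₁m
  have hstepZ : ∀ n, |(f (n + 1)).re - (f n).re| ≤ (m : ℤ) := by
    intro n
    have h1 := Complex.abs_re_le_norm
      (GaussianInt.toComplex (f (n + 1)) - GaussianInt.toComplex (f n))
    rw [Complex.sub_re, ← GaussianInt.intCast_re, ← GaussianInt.intCast_re] at h1
    have h2 : |(((f (n + 1)).re : ℝ) - ((f n).re : ℝ))| ≤ (m : ℝ) :=
      h1.trans ((hstep n).trans (Nat.le_ceil D))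
    exact_mod_cast h2
  have himZ : ∀ n, |(f n).im| ≤ (K' : ℤ) := by
    intro n
    have h1 : |((f n).im : ℝ)| ≤ (K' : ℝ) := (him n).trans hKK'
    exact_mod_cast h1
  have hbar : ∀ n, ¬ ((P : ℤ) + 2 ≤ (f n).re ∧ (f n).re ≤ (P : ℤ) + m + 2) := by
    rintro n ⟨h1, h2⟩
    have hw' := (hwall ((f n).re - P) (f n).im (by omega) (by omega) (himZ n)).1
    apply hw'
    have : (⟨(P : ℤ) + ((f n).re - P), (f n).im⟩ : GaussianInt) = f n := by
      apply Zsqrtd.ext <;> simp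
    rw [this]
    exact hirr n
  have hbar' : ∀ n, ¬ ((P : ℤ) + 2 ≤ -(f n).re ∧ -(f n).re ≤ (P : ℤ) + m + 2) := by
    rintro n ⟨h1, h2⟩
    have hw' := (hwall (-(f n).re - P) (f n).im (by omega) (by omega) (himZ n)).2
    apply hw'
    have : (⟨-((P : ℤ) + (-(f n).re - P)), (f n).im⟩ : GaussianInt) = f n := by
      apply Zsqrtd.ext <;> simp
    rw [this]
    exact hirr n
  have h0Z : |(f 0).re| < (P : ℤ) + 2 := by
    have h1 : |((f 0).re : ℝ)| ≤ (K' : ℝ) := h0.trans hKK'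
    have h2 : |(f 0).re| ≤ (K' : ℤ) := by exact_mod_cast h1
    have h3 : (K' : ℤ) ≤ (P : ℤ) := by exact_mod_cast hKP
    omega
  have hconf : ∀ n, |(f n).re| < (P : ℤ) + 2 :=
    confined (fun n => (f n).re) m P hstepZ hbar hbar' h0Z
  intro n
  have h1 : |(f n).re| ≤ (P : ℤ) + 1 := by
    have := hconf n
    omega
  have h2 : |((f n).re : ℝ)| ≤ (P : ℝ) + 1 := by exact_mod_cast h1
  have hPK : (K' : ℝ) ≤ (P : ℝ) := by exact_mod_cast hKP
  have hPpos : (0 : ℝ) < (P : ℝ) := by linarith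
  have h3 : (P : ℝ) + 1 ≤ Real.exp 1 * Real.exp (Real.log P) := by
    rw [Real.exp_log hPpos]
    have h4 : (1 : ℝ) + 1 ≤ Real.exp 1 := Real.add_one_le_exp 1
    nlinarith
  rw [← Real.exp_add] at h3
  refine h2.trans (h3.trans (Real.exp_le_exp.2 ?_))
  have h5 : C₀ * m * K' ≤ C₀ * (2 * D) * (2 * K) := by
    have h6 : C₀ * m ≤ C₀ * (2 * D) := mul_le_mul_of_nonneg_left hm2 hC₀.le
    have h7 : (0 : ℝ) ≤ (K' : ℝ) := Nat.cast_nonneg K'
    have h8 : (0 : ℝ) ≤ C₀ * (2 * D) := by positivity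
    nlinarith
  have h9 : (1 : ℝ) ≤ D * K := by nlinarith
  have h10 : (0 : ℝ) ≤ (K₁ : ℝ) * (D * K) := by positivity
  nlinarith

end Vale.Agent.Lib.P015
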